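import Vale.Agent.H8.P057Core

namespace Vale.Agent.H8.P057

open Finset Classical

/-- the elements `n ≤ N` whose dilate-translate lands in `T` -/
noncomputable def Aset {d p : ℕ} (N : ℕ) (T : Finset (Fin d → ZMod p))
    (tb : (Fin d → ZMod p) × (Fin d → ZMod p)) : Finset ℕ :=
  (Icc 1 N).filter (fun n => (n : Fin d → ZMod p) * tb.1 + tb.2 ∈ T)

/-- `(n, q)` generates a four term progression inside `Aset` -/
def BadP {d p : ℕ} (N : ℕ) (T : Finset (Fin d → ZMod p))
    (tb : (Fin d → ZMod p) × (Fin d → ZMod p)) (n q : ℕ) : Prop :=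
  ∀ i < 4, n + i * q ∈ Aset N T tb

/-- pairs `(n, q)` generating a four term progression inside `Aset` -/
noncomputable def Bad {d p : ℕ} (N : ℕ) (T : Finset (Fin d → ZMod p))
    (tb : (Fin d → ZMod p) × (Fin d → ZMod p)) : Finset (ℕ × ℕ) :=
  ((Icc 1 N) ×ˢ (Icc 1 N)).filter (fun nq => BadP N T tb nq.1 nq.2)

lemma le_r {k N : ℕ} (A : Finset ℕ) (h1 : A ⊆ Icc 1 N) (h2 : ¬ HasAP k A) : A.card ≤ r k N := by
  apply le_csSup
  · refine ⟨N, ?_⟩
    rintro n ⟨B, hB, -, rfl⟩
    simpa using card_le_card hB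
  · exact ⟨A, h1, h2, rfl⟩

lemma deletion {d p : ℕ} (N : ℕ) (T : Finset (Fin d → ZMod p))
    (tb : (Fin d → ZMod p) × (Fin d → ZMod p)) :
    (Aset N T tb).card ≤ r 4 N + (Bad N T tb).card := by
  set A := Aset N T tb with hA
  set A' := A \ (Bad N T tb).image Prod.fst with hA'
  have h1 : A' ⊆ Icc 1 N := sdiff_subset.trans (filter_subset _ _)
  have h2 : ¬ HasAP 4 A' := by
    rintro ⟨a, q, hq, h⟩
    have h0 := h 0 (by norm_num)
    simp only [zero_mul, add_zero, hA', mem_sdiff] at h0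
    apply h0.2
    rw [mem_image]
    refine ⟨(a, q), ?_, rfl⟩
    have ha : a ∈ Icc 1 N := (mem_filter.1 h0.1).1
    have h3 := h 3 (by norm_num)
    have h3' : a + 3 * q ∈ Icc 1 N := h1 h3
    rw [mem_Icc] at ha h3'
    simp only [Bad, mem_filter, mem_product, mem_Icc]
    refine ⟨⟨ha, by omega, by omega⟩, fun i hi => ?_⟩
    exact (mem_sdiff.1 (h i hi)).1
  have h3 := le_r A' h1 h2
  have h4 : A.card ≤ A'.card + ((Bad N T tb).image Prod.fst).card := by
    have := le_card_sdiff ((Bad N T tb).image Prod.fst) A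
    rw [← hA'] at this
    omega
  have h5 : ((Bad N T tb).image Prod.fst).card ≤ (Bad N T tb).card := card_image_le
  omega

lemma sum_A {d p : ℕ} [Fact p.Prime] (N : ℕ) (T : Finset (Fin d → ZMod p)) :
    ∑ tb : (Fin d → ZMod p) × (Fin d → ZMod p), (Aset N T tb).card = N * p ^ d * T.card := by
  have h1 : ∀ tb : (Fin d → ZMod p) × (Fin d → ZMod p), (Aset N T tb).card =
      ∑ n ∈ Icc 1 N, if (n : Fin d → ZMod p) * tb.1 + tb.2 ∈ T then 1 else 0 := by
    intro tb
    rw [Aset, card_filter]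
  simp_rw [h1]
  rw [sum_comm]
  have h2 : ∀ n ∈ Icc 1 N, ∑ tb : (Fin d → ZMod p) × (Fin d → ZMod p),
      (if (n : Fin d → ZMod p) * tb.1 + tb.2 ∈ T then 1 else 0) = p ^ d * T.card := by
    intro n _
    rw [Fintype.sum_prod_type]
    have h3 : ∀ t : Fin d → ZMod p,
        ∑ b : Fin d → ZMod p, (if (n : Fin d → ZMod p) * t + b ∈ T then 1 else 0) = T.card := by
      intro t
      rw [← card_filter]
      apply card_bij (fun b _ => (n : Fin d → ZMod p) * t + b)
      · intro b hb; exact (mem_filter.1 hb).2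
      · intro b _ b' _ h; exact add_left_cancel h
      · intro b hb
        exact ⟨b - (n : Fin d → ZMod p) * t, by simp [hb], by simp⟩
    simp_rw [h3]
    simp [ZMod.card]
  rw [sum_congr rfl h2]
  simp [mul_assoc]

lemma sum_Bad {d p : ℕ} [Fact p.Prime] {N : ℕ} (hN : N < p) (T Y : Finset (Fin d → ZMod p))
    (hTY : ∀ x y : Fin d → ZMod p, x ∈ T → x + y ∈ T → x + 2 * y ∈ T → x + 3 * y ∈ T → y ∈ Y) :
    ∑ tb : (Fin d → ZMod p) × (Fin d → ZMod p), (Bad N T tb).card ≤
      N * N * (T.card * Y.card) := by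
  have h1 : ∀ tb : (Fin d → ZMod p) × (Fin d → ZMod p), (Bad N T tb).card =
      ∑ nq ∈ (Icc 1 N) ×ˢ (Icc 1 N),
        if BadP N T tb nq.1 nq.2 then 1 else 0 := by
    intro tb
    rw [Bad, card_filter]
  simp_rw [h1]
  rw [sum_comm]
  have h2 : ∀ nq ∈ (Icc 1 N) ×ˢ (Icc 1 N), ∑ tb : (Fin d → ZMod p) × (Fin d → ZMod p),
      (if BadP N T tb nq.1 nq.2 then 1 else 0) ≤ T.card * Y.card := by
    rintro ⟨n, q⟩ hnq
    rw [mem_product, mem_Icc, mem_Icc] at hnq
    simp only at hnq ⊢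
    rw [← card_filter, ← card_product]
    have hq : (q : ZMod p) ≠ 0 := by
      intro h0
      have := (ZMod.natCast_eq_zero_iff q p).1 h0
      have := Nat.le_of_dvd (by omega) this
      omega
    apply card_le_card_of_injOn (fun tb => ((n : Fin d → ZMod p) * tb.1 + tb.2,
      (q : Fin d → ZMod p) * tb.1))
    · intro tb htb
      rw [mem_coe, mem_filter] at htb
      have hmem : ∀ i < 4, ((n + i * q : ℕ) : Fin d → ZMod p) * tb.1 + tb.2 ∈ T := by
        intro i hi
        exact (mem_filter.1 (htb.2 i hi)).2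
      have m0 := hmem 0 (by norm_num)
      have m1 := hmem 1 (by norm_num)
      have m2 := hmem 2 (by norm_num)
      have m3 := hmem 3 (by norm_num)
      rw [mem_coe, mem_product]
      have e0 : ((n + 0 * q : ℕ) : Fin d → ZMod p) * tb.1 + tb.2 = (n : Fin d → ZMod p) * tb.1 + tb.2 := by
        push_cast; ring
      have e1 : ((n + 1 * q : ℕ) : Fin d → ZMod p) * tb.1 + tb.2 =
          ((n : Fin d → ZMod p) * tb.1 + tb.2) + (q : Fin d → ZMod p) * tb.1 := by
        push_cast; ring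
      have e2 : ((n + 2 * q : ℕ) : Fin d → ZMod p) * tb.1 + tb.2 =
          ((n : Fin d → ZMod p) * tb.1 + tb.2) + 2 * ((q : Fin d → ZMod p) * tb.1) := by
        push_cast; ring
      have e3 : ((n + 3 * q : ℕ) : Fin d → ZMod p) * tb.1 + tb.2 =
          ((n : Fin d → ZMod p) * tb.1 + tb.2) + 3 * ((q : Fin d → ZMod p) * tb.1) := by
        push_cast; ring
      rw [e0] at m0
      rw [e1] at m1
      rw [e2] at m2
      rw [e3] at m3
      exact ⟨m0, hTY _ _ m0 m1 m2 m3⟩
    · intro tb _ tb' _ h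
      simp only [Prod.mk.injEq] at h
      have h3 : tb.1 = tb'.1 := by
        funext i
        have h4 := congrFun h.2 i
        simp only [Pi.mul_apply, Pi.natCast_apply] at h4
        exact mul_left_cancel₀ hq h4
      have h5 : tb.2 = tb'.2 := by
        have h6 := h.1
        rw [h3] at h6
        exact add_left_cancel h6
      exact Prod.ext h3 h5
  refine (sum_le_sum h2).trans ?_
  rw [sum_const, card_product, Nat.card_Icc, smul_eq_mul]
  simp

/-- averaging over dilates and translates -/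
lemma average {d p : ℕ} [Fact p.Prime] {N : ℕ} (hN : N < p) (T Y : Finset (Fin d → ZMod p))
    (hTY : ∀ x y : Fin d → ZMod p, x ∈ T → x + y ∈ T → x + 2 * y ∈ T → x + 3 * y ∈ T → y ∈ Y)
    (hY : 2 * (N * Y.card) ≤ p ^ d) :
    N * T.card ≤ 2 * (p ^ d * r 4 N) := by
  have h1 := sum_A N T (p := p)
  have h2 := sum_Bad hN T Y hTY
  have h3 : ∑ tb : (Fin d → ZMod p) × (Fin d → ZMod p), (Aset N T tb).card ≤
      ∑ tb : (Fin d → ZMod p) × (Fin d → ZMod p), (r 4 N + (Bad N T tb).card) :=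
    sum_le_sum (fun tb _ => deletion N T tb)
  rw [sum_add_distrib, h1] at h3
  have h4 : ∑ _tb : (Fin d → ZMod p) × (Fin d → ZMod p), r 4 N = p ^ d * p ^ d * r 4 N := by
    simp [ZMod.card]
  rw [h4] at h3
  have h5 : 0 < p ^ d := pow_pos (Fact.out : p.Prime).pos d
  -- N p^d |T| ≤ p^{2d} r + N^2 |T||Y|
  have h6 : 2 * (N * p ^ d * T.card) ≤ 2 * (p ^ d * p ^ d * r 4 N) + (N * T.card) * p ^ d := by
    have h7 : 2 * (N * N * (T.card * Y.card)) ≤ (N * T.card) * p ^ d := by
      calc 2 * (N * N * (T.card * Y.card)) = (N * T.card) * (2 * (N * Y.card)) := by ring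
        _ ≤ (N * T.card) * p ^ d := Nat.mul_le_mul_left _ hY
    nlinarith
  have h8 : (N * T.card) * p ^ d ≤ (2 * (p ^ d * r 4 N)) * p ^ d := by nlinarith
  exact Nat.le_of_mul_le_mul_right h8 h5

end Vale.Agent.H8.P057
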