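import Vale.Agent.H8.P057Key

namespace Vale.Agent.H8.P057

open Finset Classical

variable {p : ℕ} [hp : Fact p.Prime]

noncomputable def GZ (x : ZMod p) : ℤ := G p x.val

def InUZ (x : ZMod p) : Prop := InU p x.val

lemma step1 (x y : ZMod p) (h0 : InUZ x) (h1 : InUZ (x + y)) (h2 : InUZ (x + 2 * y))
    (h3 : InUZ (x + 3 * y)) :
    4 * (ZMod.valMinAbs (2 * y)) ^ 2 ≤ GZ x - GZ (x + y) - GZ (x + 2 * y) + GZ (x + 3 * y) := by
  have hp0 : (0 : ℤ) < p := by exact_mod_cast hp.out.pos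
  have hv : ∀ z : ZMod p, (((z.val : ℕ) : ℤ) : ZMod p) = z := by
    intro z
    rw [Int.cast_natCast]
    exact ZMod.natCast_zmod_val z
  have hlt : ∀ z : ZMod p, ((z.val : ℕ) : ℤ) < p := by
    intro z
    exact_mod_cast ZMod.val_lt z
  have hd1 : (p : ℤ) ∣ (x.val : ℤ) + ((x + 2 * y).val : ℤ) - 2 * ((x + y).val : ℤ) := by
    rw [← ZMod.intCast_zmod_eq_zero_iff_dvd]
    push_cast
    have e1 := hv x
    have e2 := hv (x + 2 * y)
    have e3 := hv (x + y)
    rw [Int.cast_natCast] at e1 e2 e3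
    rw [e1, e2, e3]
    ring
  have hd2 : (p : ℤ) ∣ ((x + y).val : ℤ) + ((x + 3 * y).val : ℤ) - 2 * ((x + 2 * y).val : ℤ) := by
    rw [← ZMod.intCast_zmod_eq_zero_iff_dvd]
    push_cast
    have e1 := hv (x + 3 * y)
    have e2 := hv (x + 2 * y)
    have e3 := hv (x + y)
    rw [Int.cast_natCast] at e1 e2 e3
    rw [e1, e2, e3]
    ring
  have hvm : (ZMod.valMinAbs (2 * y)).natAbs ≤ p / 2 := ZMod.natAbs_valMinAbs_le _
  rcases key hp0 (by positivity) (hlt _) (by positivity) (hlt _) (by positivity) (hlt _)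
    (by positivity) (hlt _) hd1 hd2 h0 h1 h2 h3 with ⟨w, hw, hle⟩ | hle
  · refine le_trans ?_ hle
    have habs : (ZMod.valMinAbs (2 * y)).natAbs ≤ w.natAbs := by
      rcases hw with hw | hw
      · apply ZMod.natAbs_min_of_le_div_two p _ _ _ hvm
        rw [ZMod.coe_valMinAbs]
        rw [← ZMod.intCast_zmod_eq_zero_iff_dvd] at hw
        push_cast at hw
        have e2 := hv (x + y)
        have e3 := hv x
        rw [Int.cast_natCast] at e2 e3
        rw [e2, e3] at hw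
        linear_combination -hw
      · rw [← Int.natAbs_neg w]
        apply ZMod.natAbs_min_of_le_div_two p _ _ _ hvm
        rw [ZMod.coe_valMinAbs]
        rw [← ZMod.intCast_zmod_eq_zero_iff_dvd] at hw
        push_cast at hw ⊢
        have e2 := hv (x + y)
        have e3 := hv x
        rw [Int.cast_natCast] at e2 e3
        rw [e2, e3] at hw
        linear_combination hw
    have := Int.natAbs_le_iff_sq_le.1 habs
    linarith
  · refine le_trans ?_ hle
    have h4 : 2 * (ZMod.valMinAbs (2 * y)).natAbs ≤ p := by omega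
    have h5 : (2 * (ZMod.valMinAbs (2 * y))).natAbs ≤ (p : ℤ).natAbs := by
      rw [Int.natAbs_mul]; simpa using h4
    have h6 := Int.natAbs_le_iff_sq_le.1 h5
    nlinarith

lemma GZ_nonneg (x : ZMod p) : 0 ≤ GZ x := G_nonneg _ _

lemma GZ_le (x : ZMod p) (hx : InUZ x) : GZ x ≤ 2 * (p : ℤ) ^ 2 :=
  G_le (by exact_mod_cast hp.out.pos) (by positivity) hx

/-- small doubled residues -/
noncomputable def Y1 (p h : ℕ) [Fact p.Prime] : Finset (ZMod p) :=
  univ.filter (fun y => (ZMod.valMinAbs (2 * y)).natAbs < h)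

lemma card_Y1 (hp2 : p ≠ 2) (h : ℕ) : (Y1 p h).card ≤ 2 * h := by
  have h2 : (2 : ZMod p) ≠ 0 := by
    intro h0
    have : (p : ℕ) ∣ 2 := by
      have h1 : ((2 : ℕ) : ZMod p) = 0 := by exact_mod_cast h0
      exact (ZMod.natCast_eq_zero_iff 2 p).1 h1
    exact hp2 ((Nat.prime_dvd_prime_iff_eq hp.out Nat.prime_two).1 this)
  have hinj : Set.InjOn (fun y : ZMod p => ZMod.valMinAbs (2 * y)) (Y1 p h : Set (ZMod p)) := by
    intro a _ b _ hab
    have := ZMod.injective_valMinAbs hab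
    exact mul_left_cancel₀ h2 this
  have hsub : (Y1 p h).image (fun y : ZMod p => ZMod.valMinAbs (2 * y)) ⊆
      Finset.Ioo (-(h : ℤ)) h := by
    intro z hz
    rw [mem_image] at hz
    obtain ⟨y, hy, rfl⟩ := hz
    simp only [Y1, mem_filter, mem_univ, true_and] at hy
    rw [mem_Ioo]
    omega
  rw [← card_image_of_injOn hinj]
  refine (card_le_card hsub).trans ?_
  rw [Int.card_Ioo]
  omega

noncomputable def U1 (p : ℕ) [Fact p.Prime] : Finset (ZMod p) := univ.filter (fun y => InUZ y)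

lemma card_U1 : 5 * p ≤ 9 * (U1 p).card + 8 := by
  set A : Finset ℕ := range ((2 * p + 8) / 9) ∪ Ico ((4 * p + 8) / 9) ((7 * p + 8) / 9) with hA
  have hAc : A.card = (2 * p + 8) / 9 + ((7 * p + 8) / 9 - (4 * p + 8) / 9) := by
    rw [hA, card_union_of_disjoint]
    · rw [card_range, Nat.card_Ico]
    · rw [disjoint_left]
      intro a ha hb
      rw [mem_range] at ha
      rw [mem_Ico] at hb
      omega
  have hinj : Set.InjOn (fun a : ℕ => (a : ZMod p)) (A : Set ℕ) := by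
    intro a ha b hb hab
    have hlt : ∀ c ∈ A, c < p := by
      intro c hc
      rw [hA, mem_union, mem_range, mem_Ico] at hc
      have := hp.out.pos
      omega
    have h1 := congrArg ZMod.val hab
    simp only at h1
    rwa [ZMod.val_natCast_of_lt (hlt a ha), ZMod.val_natCast_of_lt (hlt b hb)] at h1
  have hsub : A.image (fun a : ℕ => (a : ZMod p)) ⊆ U1 p := by
    intro z hz
    rw [mem_image] at hz
    obtain ⟨a, ha, rfl⟩ := hz
    have hlt : a < p := by
      rw [hA, mem_union, mem_range, mem_Ico] at ha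
      have := hp.out.pos
      omega
    refine mem_filter.2 ⟨mem_univ _, ?_⟩
    show InU (p : ℤ) (((a : ZMod p).val : ℕ) : ℤ)
    rw [ZMod.val_natCast_of_lt hlt]
    rw [hA, mem_union, mem_range, mem_Ico] at ha
    unfold InU
    omega
  have := card_le_card hsub
  rw [card_image_of_injOn hinj, hAc] at this
  omega

/-- vectors with all coordinates in `U1` and weight sum in the `v`-th window of width `w` -/
noncomputable def S (p : ℕ) [Fact p.Prime] (d : ℕ) (w v : ℤ) : Finset (Fin d → ZMod p) :=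
  univ.filter (fun x => (∀ i, InUZ (x i)) ∧ (∑ i, GZ (x i)) / w = v)

lemma step_d {d : ℕ} {h : ℕ} (hh : 0 < h) {v : ℤ} (x y : Fin d → ZMod p)
    (h0 : x ∈ S p d (2 * (h : ℤ) ^ 2) v) (h1 : x + y ∈ S p d (2 * (h : ℤ) ^ 2) v)
    (h2 : x + 2 * y ∈ S p d (2 * (h : ℤ) ^ 2) v) (h3 : x + 3 * y ∈ S p d (2 * (h : ℤ) ^ 2) v) :
    y ∈ Fintype.piFinset (fun _ : Fin d => Y1 p h) := by
  simp only [S, mem_filter, mem_univ, true_and] at h0 h1 h2 h3
  have hw : (0 : ℤ) < 2 * (h : ℤ) ^ 2 := by positivity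
  have bnd : ∀ s : ℤ, s / (2 * (h : ℤ) ^ 2) = v →
      v * (2 * (h : ℤ) ^ 2) ≤ s ∧ s < v * (2 * (h : ℤ) ^ 2) + 2 * (h : ℤ) ^ 2 := by
    intro s hs
    have e1 := Int.mul_ediv_add_emod s (2 * (h : ℤ) ^ 2)
    have e2 := Int.emod_nonneg s hw.ne'
    have e3 := Int.emod_lt_of_pos s hw
    rw [hs] at e1
    constructor <;> nlinarith
  obtain ⟨a1, a2⟩ := bnd _ h0.2
  obtain ⟨b1, b2⟩ := bnd _ h1.2
  obtain ⟨c1, c2⟩ := bnd _ h2.2
  obtain ⟨e1, e2⟩ := bnd _ h3.2
  have hs : ∀ i, 4 * (ZMod.valMinAbs (2 * y i)) ^ 2 ≤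
      GZ (x i) - GZ ((x + y) i) - GZ ((x + 2 * y) i) + GZ ((x + 3 * y) i) := by
    intro i
    have := step1 (x i) (y i) (h0.1 i) (h1.1 i) (h2.1 i) (h3.1 i)
    simpa using this
  have hsum : ∑ i, 4 * (ZMod.valMinAbs (2 * y i)) ^ 2 < 4 * (h : ℤ) ^ 2 := by
    calc ∑ i, 4 * (ZMod.valMinAbs (2 * y i)) ^ 2 ≤
        ∑ i, (GZ (x i) - GZ ((x + y) i) - GZ ((x + 2 * y) i) + GZ ((x + 3 * y) i)) :=
          sum_le_sum (fun i _ => hs i)
      _ = (∑ i, GZ (x i)) - (∑ i, GZ ((x + y) i)) - (∑ i, GZ ((x + 2 * y) i)) +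
            (∑ i, GZ ((x + 3 * y) i)) := by
          rw [sum_add_distrib, sum_sub_distrib, sum_sub_distrib]
      _ < 4 * (h : ℤ) ^ 2 := by linarith
  rw [Fintype.mem_piFinset]
  intro i
  simp only [Y1, mem_filter, mem_univ, true_and]
  have h5 : 4 * (ZMod.valMinAbs (2 * y i)) ^ 2 ≤ ∑ i, 4 * (ZMod.valMinAbs (2 * y i)) ^ 2 :=
    single_le_sum (f := fun i => 4 * (ZMod.valMinAbs (2 * y i)) ^ 2)
      (fun j _ => by positivity) (mem_univ i)
  have h6 : (ZMod.valMinAbs (2 * y i)) ^ 2 < (h : ℤ) ^ 2 := by linarith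
  have h7 : |ZMod.valMinAbs (2 * y i)| < |(h : ℤ)| := sq_lt_sq.1 h6
  rw [Nat.abs_cast] at h7
  zify
  exact h7

/-- pigeonhole over the windows -/
lemma exists_window {d h s : ℕ} (hd : 0 < d) (hs : 0 < s) (hh : 0 < h) (hps : p ≤ 4 * s * h) :
    ∃ v : ℤ, (U1 p).card ^ d ≤ 33 * s ^ 2 * d * (S p d (2 * (h : ℤ) ^ 2) v).card := by
  set W : Finset ℤ := Finset.range (16 * s ^ 2 * d + 1) |>.map Nat.castEmbedding with hW
  set F : Finset (Fin d → ZMod p) := Fintype.piFinset (fun _ : Fin d => U1 p) with hF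
  have hFc : F.card = (U1 p).card ^ d := by
    rw [hF, Fintype.card_piFinset]; simp
  have hp0 : (0 : ℤ) < p := by exact_mod_cast hp.out.pos
  have hw : (0 : ℤ) < 2 * (h : ℤ) ^ 2 := by positivity
  have hmaps : ∀ x ∈ F, (∑ i, GZ (x i)) / (2 * (h : ℤ) ^ 2) ∈ W := by
    intro x hx
    rw [hF, Fintype.mem_piFinset] at hx
    have h0 : 0 ≤ ∑ i, GZ (x i) := sum_nonneg (fun i _ => GZ_nonneg _)
    have h1 : ∑ i, GZ (x i) ≤ d * (2 * (p : ℤ) ^ 2) := by
      calc ∑ i, GZ (x i) ≤ ∑ _i : Fin d, 2 * (p : ℤ) ^ 2 :=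
            sum_le_sum (fun i _ => GZ_le _ (by simpa [U1] using hx i))
        _ = d * (2 * (p : ℤ) ^ 2) := by simp
    have h2 : (p : ℤ) ^ 2 ≤ (4 * s * h) ^ 2 := by
      have : (p : ℤ) ≤ 4 * s * h := by exact_mod_cast hps
      exact pow_le_pow_left₀ hp0.le this 2
    have h3 : (∑ i, GZ (x i)) / (2 * (h : ℤ) ^ 2) ≤ 16 * s ^ 2 * d := by
      apply Int.ediv_le_of_le_mul hw
      calc ∑ i, GZ (x i) ≤ d * (2 * (p : ℤ) ^ 2) := h1
        _ ≤ d * (2 * (4 * s * h) ^ 2) := by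
            apply mul_le_mul_of_nonneg_left _ (by positivity)
            linarith
        _ = 16 * s ^ 2 * d * (2 * (h : ℤ) ^ 2) := by ring
    have h4 : 0 ≤ (∑ i, GZ (x i)) / (2 * (h : ℤ) ^ 2) := Int.ediv_nonneg h0 hw.le
    rw [hW, mem_map]
    refine ⟨((∑ i, GZ (x i)) / (2 * (h : ℤ) ^ 2)).toNat, ?_, ?_⟩
    · rw [mem_range]
      zify
      rw [Int.toNat_of_nonneg h4]
      linarith
    · simp only [Nat.castEmbedding_apply]
      exact Int.toNat_of_nonneg h4
  have hWc : W.card = 16 * s ^ 2 * d + 1 := by rw [hW, card_map, card_range]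
  by_contra hcon
  push Not at hcon
  have h1 : F.card ≤ ∑ v ∈ W, (S p d (2 * (h : ℤ) ^ 2) v).card := by
    rw [card_eq_sum_card_fiberwise hmaps]
    apply sum_le_sum
    intro v _
    apply card_le_card
    intro x hx
    rw [mem_filter] at hx
    rw [hF, Fintype.mem_piFinset] at hx
    simp only [S, mem_filter, mem_univ, true_and]
    exact ⟨fun i => by simpa [U1] using hx.1 i, hx.2⟩
  have h2 : 33 * s ^ 2 * d * ∑ v ∈ W, (S p d (2 * (h : ℤ) ^ 2) v).card <
      W.card * (U1 p).card ^ d := by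
    rw [mul_sum, ← smul_eq_mul (a := W.card), ← sum_const]
    apply sum_lt_sum_of_nonempty
    · rw [← card_pos, hWc]; omega
    · intro v _
      exact hcon v
  rw [hWc, ← hFc] at h2
  have h3 : 1 ≤ s ^ 2 * d := Nat.mul_pos (by positivity) hd
  have h4 : (16 * s ^ 2 * d + 1) * F.card ≤ 33 * s ^ 2 * d * F.card :=
    Nat.mul_le_mul_right _ (by nlinarith)
  have h5 : 33 * s ^ 2 * d * F.card ≤ 33 * s ^ 2 * d * ∑ v ∈ W, (S p d (2 * (h : ℤ) ^ 2) v).card :=
    Nat.mul_le_mul_left _ h1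
  omega

end Vale.Agent.H8.P057
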