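import Mathlib

namespace Vale.Agent.H8.P057

/-- `A` contains a `k`-term arithmetic progression `a, a + d, ..., a + (k - 1) d` with `d > 0`. -/
def HasAP (k : ℕ) (A : Finset ℕ) : Prop :=
  ∃ a d : ℕ, 0 < d ∧ ∀ i < k, a + i * d ∈ A

/-- `r_k(N)`: the largest cardinality of a subset of `{1, ..., N}` containing no `k`-term
arithmetic progression. -/
noncomputable def r (k N : ℕ) : ℕ :=
  sSup {n | ∃ A : Finset ℕ, A ⊆ Finset.Icc 1 N ∧ ¬ HasAP k A ∧ A.card = n}

end Vale.Agent.H8.P057
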