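import Vale.Agent.H8.P057Avg

namespace Vale.Agent.H8.P057

open Finset Classical

/-- explicit finite lower bound -/
theorem core {N d s : ℕ} (hd : 0 < d) (hs : 0 < s) (hN : 2 * N ≤ s ^ d) :
    (N : ℝ) * (5 / 9 : ℝ) ^ d ≤ 132 * d * (s : ℝ) ^ 2 * (r 4 N : ℝ) := by
  obtain ⟨p, hpge, hpp⟩ := Nat.exists_infinite_primes (N + 4 * d + 4 * s + 3)
  have : Fact p.Prime := ⟨hpp⟩
  set h : ℕ := p / (2 * s) with hh
  have h2s : 0 < 2 * s := by omega
  have hmul : 2 * s * h ≤ p := Nat.mul_div_le p (2 * s)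
  have hlt : p < 2 * s * (h + 1) := by
    have := Nat.lt_mul_div_succ p h2s
    simpa [hh] using this
  have hpos : 0 < h := by
    rcases Nat.eq_zero_or_pos h with h0 | h0
    · rw [h0] at hlt
      simp only [zero_add, mul_one] at hlt
      omega
    · exact h0
  have hp4 : p ≤ 4 * s * h := by nlinarith
  obtain ⟨v, hv⟩ := exists_window (p := p) hd hs hpos hp4
  set T := S p d (2 * (h : ℤ) ^ 2) v with hT
  set Y : Finset (Fin d → ZMod p) := Fintype.piFinset (fun _ : Fin d => Y1 p h) with hY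
  have hYc : Y.card ≤ (2 * h) ^ d := by
    rw [hY, Fintype.card_piFinset]
    simp only [prod_const, card_univ, Fintype.card_fin]
    exact Nat.pow_le_pow_left (card_Y1 (by omega) h) d
  have hYN : 2 * (N * Y.card) ≤ p ^ d := by
    calc 2 * (N * Y.card) = (2 * N) * Y.card := by ring
      _ ≤ s ^ d * (2 * h) ^ d := Nat.mul_le_mul hN hYc
      _ = (2 * s * h) ^ d := by rw [← mul_pow]; ring_nf
      _ ≤ p ^ d := Nat.pow_le_pow_left hmul d
  have hav := average (N := N) (by omega) T Y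
    (fun x y h0 h1 h2 h3 => step_d hpos x y h0 h1 h2 h3) hYN
  have hU := card_U1 (p := p)
  -- combine
  have e1 : (N : ℝ) * ((U1 p).card : ℝ) ^ d ≤ 66 * s ^ 2 * d * p ^ d * (r 4 N : ℝ) := by
    have : N * (U1 p).card ^ d ≤ 66 * s ^ 2 * d * p ^ d * r 4 N := by
      calc N * (U1 p).card ^ d ≤ N * (33 * s ^ 2 * d * T.card) := Nat.mul_le_mul_left _ hv
        _ = 33 * s ^ 2 * d * (N * T.card) := by ring
        _ ≤ 33 * s ^ 2 * d * (2 * (p ^ d * r 4 N)) := Nat.mul_le_mul_left _ hav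
        _ = 66 * s ^ 2 * d * p ^ d * r 4 N := by ring
    exact_mod_cast this
  have hpR : (0 : ℝ) < p := by exact_mod_cast hpp.pos
  have e2 : (5 * (p : ℝ) - 8) ≤ 9 * ((U1 p).card : ℝ) := by
    have : (5 * (p : ℝ)) ≤ 9 * ((U1 p).card : ℝ) + 8 := by exact_mod_cast hU
    linarith
  have hp4d : (4 * (d : ℝ)) ≤ p := by
    have : 4 * d ≤ p := by omega
    exact_mod_cast this
  have hd1 : (1 : ℝ) ≤ d := by exact_mod_cast hd
  have e3 : (1 / 2 : ℝ) * (5 * (p : ℝ)) ^ d ≤ (5 * (p : ℝ) - 8) ^ d := by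
    have h1 : 5 * (p : ℝ) - 8 = (5 * (p : ℝ)) * (1 + (-(8 / (5 * (p : ℝ))))) := by
      field_simp
      ring
    rw [h1, mul_pow (5 * (p : ℝ)) (1 + (-(8 / (5 * (p : ℝ))))) d]
    have h2 : (8 / (5 * (p : ℝ))) ≤ 8 / (20 * d) := by
      apply div_le_div_of_nonneg_left (by norm_num) (by positivity)
      linarith
    have h3 : (8 : ℝ) / (20 * d) ≤ 1 / 2 / d := by
      rw [div_le_div_iff₀ (by positivity) (by positivity)]
      nlinarith
    have h5 : (1 : ℝ) / 2 / d ≤ 1 / 2 := by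
      rw [div_le_iff₀ (by positivity)]
      nlinarith
    have h4 := one_add_mul_le_pow (a := -(8 / (5 * (p : ℝ)))) (by linarith) d
    have h6 : (1 / 2 : ℝ) ≤ 1 + (d : ℝ) * (-(8 / (5 * (p : ℝ)))) := by
      have h7 : (d : ℝ) * (8 / (5 * (p : ℝ))) ≤ d * (1 / 2 / d) :=
        mul_le_mul_of_nonneg_left (h2.trans h3) (by positivity)
      have h8 : (d : ℝ) * (1 / 2 / d) = 1 / 2 := by field_simp
      linarith
    have h9 : (0 : ℝ) ≤ (5 * (p : ℝ)) ^ d := by positivity
    nlinarith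
  have e4 : (5 * (p : ℝ) - 8) ^ d ≤ (9 * ((U1 p).card : ℝ)) ^ d := by
    apply pow_le_pow_left₀ _ e2
    nlinarith
  have e5 : (N : ℝ) * ((1 / 2 : ℝ) * (5 * (p : ℝ)) ^ d) ≤
      9 ^ d * (66 * s ^ 2 * d * p ^ d * (r 4 N : ℝ)) := by
    calc (N : ℝ) * ((1 / 2 : ℝ) * (5 * (p : ℝ)) ^ d) ≤ N * (9 * ((U1 p).card : ℝ)) ^ d :=
          mul_le_mul_of_nonneg_left (e3.trans e4) (by positivity)
      _ = 9 ^ d * ((N : ℝ) * ((U1 p).card : ℝ) ^ d) := by rw [mul_pow]; ring
      _ ≤ 9 ^ d * (66 * s ^ 2 * d * p ^ d * (r 4 N : ℝ)) :=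
          mul_le_mul_of_nonneg_left e1 (by positivity)
  have hpd : (0 : ℝ) < (p : ℝ) ^ d := by positivity
  have h9 : (0 : ℝ) < (9 : ℝ) ^ d := by positivity
  have e6 : (N : ℝ) * 5 ^ d ≤ 9 ^ d * (132 * d * (s : ℝ) ^ 2 * (r 4 N : ℝ)) := by
    rw [mul_pow] at e5
    have : ((N : ℝ) * 5 ^ d) * p ^ d ≤ (9 ^ d * (132 * d * (s : ℝ) ^ 2 * (r 4 N : ℝ))) * p ^ d := by
      nlinarith
    exact le_of_mul_le_mul_right this hpd
  rw [div_pow]
  rw [mul_div_assoc', div_le_iff₀ h9]
  linarith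

lemma eventually_small (ε c K : ℝ) (hε : 0 < ε) (hc : 0 < c) :
    ∀ᶠ y : ℝ in Filter.atTop, K + 2 * Real.log 2 / (c * y) + Real.log (c * y + 1) ≤ ε * y := by
  have h1 := Real.isLittleO_log_id_atTop
  have h2 : Filter.Tendsto (fun y : ℝ => c * y + 1) Filter.atTop Filter.atTop :=
    Filter.tendsto_atTop_add_const_right _ _ (Filter.tendsto_id.const_mul_atTop hc)
  have h3 := (h1.bound (show (0 : ℝ) < ε / (4 * c) by positivity))
  have h4 := h2.eventually h3
  have h5 : ∀ᶠ y : ℝ in Filter.atTop, max 1 ((K + 2 * Real.log 2 / c + ε / (4 * c)) / (ε / 2)) ≤ y :=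
    Filter.eventually_ge_atTop _
  filter_upwards [h4, h5] with y hy1 hy2
  have hy1' : (1 : ℝ) ≤ y := le_trans (le_max_left _ _) hy2
  have hy2' := le_trans (le_max_right _ _) hy2
  rw [div_le_iff₀ (by positivity)] at hy2'
  have hcy : 0 < c * y + 1 := by positivity
  rw [Real.norm_eq_abs, Real.norm_eq_abs, id, abs_of_pos hcy] at hy1
  have h6 := le_trans (le_abs_self _) hy1
  have h7 : ε / (4 * c) * (c * y + 1) = ε / 4 * y + ε / (4 * c) := by field_simp
  have h8 : 2 * Real.log 2 / (c * y) ≤ 2 * Real.log 2 / c := by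
    apply div_le_div_of_nonneg_left
    · have := Real.log_pos one_lt_two
      positivity
    · exact hc
    · nlinarith
  rw [h7] at h6
  nlinarith

theorem asymptotic (ε : ℝ) (hε : 0 < ε) :
    ∀ᶠ N : ℕ in Filter.atTop,
      (N : ℝ) * Real.exp (-(2 * √(2 * Real.log (9 / 5)) + ε) * √(Real.log N)) ≤ (r 4 N : ℝ) := by
  set lam : ℝ := Real.log (9 / 5) with hlam
  have hlam0 : 0 < lam := Real.log_pos (by norm_num)
  set c : ℝ := √(2 / lam) with hc
  have hc0 : 0 < c := Real.sqrt_pos.2 (by positivity)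
  have hc2 : c ^ 2 = 2 / lam := Real.sq_sqrt (by positivity)
  have hq0 : 0 ≤ √(2 * lam) := Real.sqrt_nonneg _
  have hlc : lam * c = √(2 * lam) := by
    rw [eq_comm, Real.sqrt_eq_iff_mul_self_eq (by positivity) (by positivity)]
    have : lam * c * (lam * c) = lam ^ 2 * c ^ 2 := by ring
    rw [this, hc2]
    field_simp
  have h2c : 2 / c = √(2 * lam) := by
    rw [eq_comm, Real.sqrt_eq_iff_mul_self_eq (by positivity) (by positivity)]
    have : 2 / c * (2 / c) = 4 / c ^ 2 := by field_simp; norm_num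
    rw [this, hc2]
    field_simp
    norm_num
  have hy : Filter.Tendsto (fun N : ℕ => √(Real.log N)) Filter.atTop Filter.atTop :=
    Real.tendsto_sqrt_atTop.comp (Real.tendsto_log_atTop.comp tendsto_natCast_atTop_atTop)
  have hsmall := hy.eventually (eventually_small ε c (lam + 2 * Real.log 2 + Real.log 132) hε hc0)
  have hy1 : ∀ᶠ N : ℕ in Filter.atTop, (1 : ℝ) ≤ √(Real.log N) :=
    hy.eventually (Filter.eventually_ge_atTop 1)
  filter_upwards [hsmall, hy1, Filter.eventually_ge_atTop 1] with N hsm hy1 hN1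
  set y : ℝ := √(Real.log N) with hydef
  have hNR : (1 : ℝ) ≤ N := by exact_mod_cast hN1
  have hlogN : 0 ≤ Real.log N := Real.log_nonneg hNR
  have hy2 : y ^ 2 = Real.log N := Real.sq_sqrt hlogN
  have hy0 : 0 < y := by linarith
  have hcy : 0 < c * y := by positivity
  set d : ℕ := ⌈c * y⌉₊ with hd
  have hd0 : 0 < d := Nat.ceil_pos.2 hcy
  have hd1 : c * y ≤ d := Nat.le_ceil _
  have hd2 : (d : ℝ) < c * y + 1 := Nat.ceil_lt_add_one hcy.le
  have hdR : (0 : ℝ) < d := by exact_mod_cast hd0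
  set t : ℝ := (2 * (N : ℝ)) ^ (1 / (d : ℝ)) with ht
  have ht1 : 1 ≤ t := Real.one_le_rpow (by linarith) (by positivity)
  set s : ℕ := ⌈t⌉₊ with hs
  have hs0 : 0 < s := Nat.ceil_pos.2 (by linarith)
  have hst : t ≤ s := Nat.le_ceil _
  have hs2 : (s : ℝ) ≤ 2 * t := by
    have := Nat.ceil_lt_add_one (show 0 ≤ t by linarith)
    linarith
  have htd : t ^ d = 2 * (N : ℝ) := by
    rw [ht, ← Real.rpow_natCast, ← Real.rpow_mul (by positivity)]
    rw [one_div, inv_mul_cancel₀ hdR.ne', Real.rpow_one]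
  have hNs : 2 * N ≤ s ^ d := by
    have : (2 * (N : ℝ)) ≤ (s : ℝ) ^ d := by
      rw [← htd]
      exact pow_le_pow_left₀ (by linarith) hst d
    exact_mod_cast this
  have hcore := core hd0 hs0 hNs
  -- logarithms
  have hsR : (0 : ℝ) < s := by exact_mod_cast hs0
  have hlogs : Real.log s ≤ Real.log 2 + (Real.log 2 + y ^ 2) / (c * y) := by
    calc Real.log s ≤ Real.log (2 * t) := Real.log_le_log hsR hs2
      _ = Real.log 2 + Real.log t := Real.log_mul (by norm_num) (by linarith)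
      _ = Real.log 2 + (1 / (d : ℝ)) * (Real.log 2 + y ^ 2) := by
          rw [ht, Real.log_rpow (by positivity), Real.log_mul (by norm_num) (by linarith), hy2]
      _ ≤ Real.log 2 + (Real.log 2 + y ^ 2) / (c * y) := by
          have h1 : (1 / (d : ℝ)) * (Real.log 2 + y ^ 2) = (Real.log 2 + y ^ 2) / d := by ring
          rw [h1]
          have h2 : (Real.log 2 + y ^ 2) / d ≤ (Real.log 2 + y ^ 2) / (c * y) := by
            apply div_le_div_of_nonneg_left _ hcy hd1
            have := Real.log_pos one_lt_two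
            positivity
          linarith
  have hlogd : Real.log d ≤ Real.log (c * y + 1) := Real.log_le_log hdR hd2.le
  have hsplit : (Real.log 2 + y ^ 2) / (c * y) = Real.log 2 / (c * y) + y / c := by
    field_simp
  have hexp : Real.log (132 * d * (s : ℝ) ^ 2) + lam * d ≤
      (2 * √(2 * lam) + ε) * y := by
    rw [Real.log_mul (by positivity) (by positivity), Real.log_mul (by norm_num) (by positivity),
      Real.log_pow]
    push_cast
    have h1 : lam * d ≤ lam * (c * y + 1) := mul_le_mul_of_nonneg_left hd2.le hlam0.le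
    have h2 : lam * (c * y + 1) = √(2 * lam) * y + lam := by rw [← hlc]; ring
    have h3 : 2 * (y / c) = √(2 * lam) * y := by rw [← h2c]; ring
    have h4 : 2 * Real.log 2 / (c * y) = 2 * (Real.log 2 / (c * y)) := by ring
    rw [hsplit] at hlogs
    rw [h4] at hsm
    nlinarith
  have hpos132 : (0 : ℝ) < 132 * d * (s : ℝ) ^ 2 := by positivity
  have hfin : (N : ℝ) * Real.exp (-(2 * √(2 * lam) + ε) * y) * (132 * d * (s : ℝ) ^ 2) ≤
      (132 * d * (s : ℝ) ^ 2) * (r 4 N : ℝ) := by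
    refine le_trans ?_ hcore
    have h1 : Real.exp (-(2 * √(2 * lam) + ε) * y) * (132 * d * (s : ℝ) ^ 2) ≤ (5 / 9 : ℝ) ^ d := by
      have h2 : (132 * d * (s : ℝ) ^ 2) = Real.exp (Real.log (132 * d * (s : ℝ) ^ 2)) :=
        (Real.exp_log hpos132).symm
      have h3 : (5 / 9 : ℝ) ^ d = Real.exp (-(lam * d)) := by
        have h4 : (5 / 9 : ℝ) = Real.exp (-lam) := by
          rw [hlam, Real.exp_neg, Real.exp_log (by norm_num)]
          norm_num
        rw [h4, ← Real.exp_nat_mul]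
        ring_nf
      rw [h2, h3, ← Real.exp_add, Real.exp_le_exp]
      linarith
    calc (N : ℝ) * Real.exp (-(2 * √(2 * lam) + ε) * y) * (132 * d * (s : ℝ) ^ 2) =
        N * (Real.exp (-(2 * √(2 * lam) + ε) * y) * (132 * d * (s : ℝ) ^ 2)) := by ring
      _ ≤ N * (5 / 9 : ℝ) ^ d := mul_le_mul_of_nonneg_left h1 (by positivity)
  rw [mul_comm _ (132 * d * (s : ℝ) ^ 2)] at hfin
  exact le_of_mul_le_mul_left hfin hpos132

theorem constant_lt : 2 * √(2 * Real.log (9 / 5)) < 2 * √(Real.log (24 / 7)) := by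
  have h1 : 2 * Real.log (9 / 5) < Real.log (24 / 7) := by
    have : 2 * Real.log (9 / 5) = Real.log ((9 / 5) ^ 2) := by
      rw [Real.log_pow]; norm_num
    rw [this]
    exact Real.log_lt_log (by norm_num) (by norm_num)
  have h2 : √(2 * Real.log (9 / 5)) < √(Real.log (24 / 7)) := Real.sqrt_lt_sqrt (by
    have := Real.log_pos (show (1 : ℝ) < 9 / 5 by norm_num)
    positivity) h1
  linarith

end Vale.Agent.H8.P057
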