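import Vale.Agent.H8.P057Defs

namespace Vale.Agent.H8.P057

/-- the two arcs `[0, 2/9)` and `[4/9, 7/9)` -/
def InU (p a : ℤ) : Prop := 9 * a < 2 * p ∨ (4 * p ≤ 9 * a ∧ 9 * a < 7 * p)

/-- the weight -/
def G (p a : ℤ) : ℤ := if 9 * a < 2 * p then 4 * a ^ 2 + p ^ 2 else (2 * a - p) ^ 2

lemma key {p a b c e : ℤ} (hp : 0 < p) (ha0 : 0 ≤ a) (hap : a < p) (hb0 : 0 ≤ b) (hbp : b < p)
    (hc0 : 0 ≤ c) (hcp : c < p) (he0 : 0 ≤ e) (hep : e < p)
    (h1 : p ∣ a + c - 2 * b) (h2 : p ∣ b + e - 2 * c)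
    (hUa : InU p a) (hUb : InU p b) (hUc : InU p c) (hUe : InU p e) :
    (∃ w : ℤ, (p ∣ w - 2 * (b - a) ∨ p ∣ w + 2 * (b - a)) ∧
      4 * w ^ 2 ≤ G p a - G p b - G p c + G p e) ∨
    p ^ 2 ≤ G p a - G p b - G p c + G p e := by
  obtain ⟨i, hi⟩ := h1
  obtain ⟨j, hj⟩ := h2
  have hi1 : -2 < i := by nlinarith
  have hi2 : i < 2 := by nlinarith
  have hj1 : -2 < j := by nlinarith
  have hj2 : j < 2 := by nlinarith
  unfold InU at hUa hUb hUc hUe
  have hi' : i = -1 ∨ i = 0 ∨ i = 1 := by omega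
  have hj' : j = -1 ∨ j = 0 ∨ j = 1 := by omega
  unfold G
  rcases hUa with hA | hA <;> rcases hUb with hB | hB <;> rcases hUc with hC | hC <;>
    rcases hUe with hE | hE <;> rcases hi' with rfl | rfl | rfl <;>
    rcases hj' with rfl | rfl | rfl <;> (try (exfalso; omega))
  · -- AAAA
    left
    refine ⟨2 * (b - a), Or.inl (by simp), ?_⟩
    rw [if_pos hA, if_pos hB, if_pos hC, if_pos hE]
    have hc : c = 2 * b - a := by linarith
    have he : e = 3 * b - 2 * a := by linarith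
    subst hc he
    nlinarith
  · -- ABAB
    left
    refine ⟨p - 2 * (b - a), Or.inr (by simp), ?_⟩
    rw [if_pos hA, if_neg (by omega), if_pos hC, if_neg (by omega)]
    have hc : c = 2 * b - a - p := by linarith
    have he : e = 3 * b - 2 * a - p := by linarith
    subst hc he
    nlinarith
  · -- ABBA
    right
    rw [if_pos hA, if_neg (by omega), if_neg (by omega), if_pos hE]
    have h1 : 0 ≤ (5 * p - 9 * (2 * b - p)) * (5 * p + 9 * (2 * b - p)) :=
      mul_nonneg (by omega) (by omega)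
    have h2 : 0 ≤ (5 * p - 9 * (2 * c - p)) * (5 * p + 9 * (2 * c - p)) :=
      mul_nonneg (by omega) (by omega)
    nlinarith [sq_nonneg a, sq_nonneg e, sq_nonneg p]
  · -- ABBA
    right
    rw [if_pos hA, if_neg (by omega), if_neg (by omega), if_pos hE]
    have h1 : 0 ≤ (5 * p - 9 * (2 * b - p)) * (5 * p + 9 * (2 * b - p)) :=
      mul_nonneg (by omega) (by omega)
    have h2 : 0 ≤ (5 * p - 9 * (2 * c - p)) * (5 * p + 9 * (2 * c - p)) :=
      mul_nonneg (by omega) (by omega)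
    nlinarith [sq_nonneg a, sq_nonneg e, sq_nonneg p]
  · -- BABA
    left
    refine ⟨p + 2 * (b - a), Or.inl (by simp), ?_⟩
    rw [if_neg (by omega), if_pos hB, if_neg (by omega), if_pos hE]
    have hc : c = 2 * b - a + p := by linarith
    have he : e = 3 * b - 2 * a + p := by linarith
    subst hc he
    nlinarith
  · -- BBBB
    left
    refine ⟨2 * (b - a), Or.inl (by simp), ?_⟩
    rw [if_neg (by omega), if_neg (by omega), if_neg (by omega), if_neg (by omega)]
    have hc : c = 2 * b - a := by linarith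
    have he : e = 3 * b - 2 * a := by linarith
    subst hc he
    nlinarith

lemma G_nonneg (p a : ℤ) : 0 ≤ G p a := by
  unfold G
  split_ifs <;> positivity

lemma G_le {p a : ℤ} (hp : 0 < p) (ha0 : 0 ≤ a) (hU : InU p a) : G p a ≤ 2 * p ^ 2 := by
  unfold G InU at *
  split_ifs with h
  · nlinarith
  · rcases hU with h1 | h1
    · exact absurd h1 h
    · have h1 : 0 ≤ (5 * p - 9 * (2 * a - p)) * (5 * p + 9 * (2 * a - p)) :=
        mul_nonneg (by omega) (by omega)
      nlinarith [sq_nonneg p]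

end Vale.Agent.H8.P057
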