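import Mathlib

open Finset
open scoped Classical

namespace Vale.Agent.H8.P058

/-- The Euclidean space `ℝ^d` with its Euclidean distance. -/
abbrev E (d : ℕ) := EuclideanSpace ℝ (Fin d)

/-- `A` is Ramsey: nonempty, and for every number `r ≥ 2` of colours there is `D ≥ 1` such that
every colouring of `ℝ^D` with `r` colours has a monochromatic congruent copy of `A`
(the image of `A` under a map preserving all pairwise distances). -/
def IsRamsey {d : ℕ} (A : Finset (E d)) : Prop :=
  A.Nonempty ∧ ∀ r : ℕ, 2 ≤ r → ∃ D : ℕ, 1 ≤ D ∧ ∀ c : E D → Fin r,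
    ∃ f : A → E D, (∀ x y : A, dist (f x) (f y) = dist (x : E d) (y : E d)) ∧
      ∃ k : Fin r, ∀ x : A, c (f x) = k

/-- `A` is spherical: it lies on a sphere of its ambient Euclidean space. -/
def IsSpherical {d : ℕ} (A : Finset (E d)) : Prop :=
  ∃ (z : E d) (ρ : ℝ), ∀ x ∈ A, dist x z = ρ

/-- `X` is transitive: the isometries of `ℝ^n` that map `X` onto itself act transitively
on `X`. -/
def IsTransitive {n : ℕ} (X : Finset (E n)) : Prop :=
  ∀ x ∈ X, ∀ y ∈ X, ∃ e : E n ≃ᵢ E n, e '' (X : Set (E n)) = X ∧ e x = y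

/-- `A` is subtransitive: it is congruent to a subset of a finite transitive set. -/
def IsSubtransitive {d : ℕ} (A : Finset (E d)) : Prop :=
  ∃ (n : ℕ) (X : Finset (E n)), IsTransitive X ∧ ∃ f : A → E n,
    (∀ x y : A, dist (f x) (f y) = dist (x : E d) (y : E d)) ∧ ∀ x : A, f x ∈ X

/-- The kite `{(-1,0), (1,0), (t, √(1-t²)), (t, -√(1-t²))}`, four points of the unit circle. -/
noncomputable def kite (t : ℝ) : Finset (E 2) :=
  {!₂[-1, 0], !₂[1, 0], !₂[t, √(1 - t ^ 2)], !₂[t, -√(1 - t ^ 2)]}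

end Vale.Agent.H8.P058
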