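import Vale.Agent.H8.P058Defs

open Finset
open scoped Classical

namespace Vale.Agent.H8.P058

/-- Twelve points of the unit circle (for `a² + b² = 1`). -/
noncomputable def twelve (a b : ℝ) : Finset (E 2) :=
  {!₂[1, 0], !₂[-1, 0], !₂[0, 1], !₂[0, -1],
   !₂[a, b], !₂[a, -b], !₂[-a, b], !₂[-a, -b],
   !₂[b, a], !₂[b, -a], !₂[-b, a], !₂[-b, -a]}

end Vale.Agent.H8.P058
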