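import Mathlib

open Set

namespace Vale.Agent.H8.P058

open scoped IntermediateField.algebraAdjoinAdjoin in
theorem etale_of_basis {s : Set ℝ} (hs : IsTranscendenceBasis ℚ ((↑) : s → ℝ)) :
    Algebra.FormallyEtale (Algebra.adjoin ℚ (range ((↑) : s → ℝ))) ℝ := by
  have h1 : Algebra.FormallyEtale (Algebra.adjoin ℚ (range ((↑) : s → ℝ)))
      (IntermediateField.adjoin ℚ (range ((↑) : s → ℝ))) :=
    .of_isLocalization (nonZeroDivisors _)
  have h2 : Algebra.IsAlgebraic (IntermediateField.adjoin ℚ (range ((↑) : s → ℝ))) ℝ :=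
    hs.isAlgebraic_field
  have h3 : Algebra.FormallyEtale (IntermediateField.adjoin ℚ (range ((↑) : s → ℝ))) ℝ :=
    Algebra.FormallyEtale.of_isSeparable _ ℝ
  exact .comp _ (IntermediateField.adjoin ℚ (range ((↑) : s → ℝ))) _

open TensorProduct in
/-- a derivation of the field `ℝ` which does not kill a given transcendental number -/
theorem exists_derivation (a : ℝ) (ha : Transcendental ℚ a) :
    ∃ D : Derivation ℚ ℝ ℝ, D a = 1 := by
  have hind : AlgebraicIndepOn ℚ (id : ℝ → ℝ) ({a} : Set ℝ) := by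
    have := algebraicIndependent_unique_type_iff (R := ℚ) (x := fun i : ({a} : Set ℝ) => (i : ℝ))
    exact this.2 ha
  obtain ⟨s, has, hs⟩ := exists_isTranscendenceBasis_superset hind
  have hx : AlgebraicIndependent ℚ ((↑) : s → ℝ) := hs.1
  have het := etale_of_basis hs
  set S := Algebra.adjoin ℚ (range ((↑) : s → ℝ)) with hS
  let e : MvPolynomial s ℚ ≃ₐ[ℚ] S := hx.aevalEquiv
  let a0 : s := ⟨a, has rfl⟩
  let DP : Derivation ℚ (MvPolynomial s ℚ) (MvPolynomial s ℚ) := MvPolynomial.pderiv a0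
  let DS : Derivation ℚ S S :=
    { toLinearMap := e.toLinearMap ∘ₗ DP.toLinearMap ∘ₗ e.symm.toLinearMap
      map_one_eq_zero' := by simp
      leibniz' := by
        intro x y
        simp }
  let DT : Derivation ℚ S ℝ := (Algebra.linearMap S ℝ).compDer DS
  let L : Ω[S⁄ℚ] →ₗ[S] ℝ := DT.liftKaehlerDifferential
  let L' : ℝ ⊗[S] Ω[S⁄ℚ] →ₗ[ℝ] ℝ := L.liftBaseChange ℝ
  let eqv := (KaehlerDifferential.tensorKaehlerEquivOfFormallyEtale ℚ S ℝ).symm
  refine ⟨(L' ∘ₗ eqv.toLinearMap).compDer (KaehlerDifferential.D ℚ ℝ), ?_⟩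
  let aS : S := e (MvPolynomial.X a0)
  have haS : algebraMap S ℝ aS = a := by
    have := hx.algebraMap_aevalEquiv (MvPolynomial.X a0)
    rw [MvPolynomial.aeval_X] at this
    exact this
  have h1 : DT aS = 1 := by
    have h2 : DS aS = 1 := by
      show e (DP (e.symm (e (MvPolynomial.X a0)))) = 1
      rw [AlgEquiv.symm_apply_apply]
      simp [DP]
    show algebraMap S ℝ (DS aS) = 1
    rw [h2, map_one]
  show L' (eqv (KaehlerDifferential.D ℚ ℝ a)) = 1
  have h3 : eqv (KaehlerDifferential.D ℚ ℝ a) = 1 ⊗ₜ KaehlerDifferential.D ℚ S aS := by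
    rw [← haS]
    exact KaehlerDifferential.tensorKaehlerEquivOfFormallyEtale_symm_D_algebraMap ℚ S ℝ aS
  rw [h3]
  simp only [L', LinearMap.liftBaseChange_tmul, one_smul]
  show DT.liftKaehlerDifferential (KaehlerDifferential.D ℚ S aS) = 1
  rw [Derivation.liftKaehlerDifferential_comp_D, h1]

end Vale.Agent.H8.P058
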