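import Mathlib

open Finset
open scoped Classical

namespace Vale.Agent.H8.P058

/-- squared Euclidean distance of two real functions on a finite type -/
noncomputable def sqd {m : Type} [Fintype m] (x y : m → ℝ) : ℝ := ∑ i, (x i - y i) ^ 2

/-- The configuration with squared distances `δ` can be copied, in every finite colouring of
some finite Euclidean point set, in such a way that `R`-related points get the same colour. -/
def Hom {ι : Type} (δ : ι → ι → ℝ) (R : ι → ι → Prop) : Prop :=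
  ∀ (C : Type) [Finite C], ∃ (κ : Type) (_ : Fintype κ) (m : Type) (_ : Fintype m)
    (z : κ → m → ℝ), ∀ χ : κ → C, ∃ f : ι → κ,
      (∀ i j, sqd (z (f i)) (z (f j)) = δ i j) ∧ ∀ i j, R i j → χ (f i) = χ (f j)

theorem Hom.pull {ι ι' : Type} {δ : ι → ι → ℝ} {R : ι → ι → Prop} (h : Hom δ R)
    {δ' : ι' → ι' → ℝ} {R' : ι' → ι' → Prop} (e : ι' → ι)
    (hδ : ∀ i j, δ' i j = δ (e i) (e j)) (hR : ∀ i j, R' i j → R (e i) (e j)) : Hom δ' R' := by
  intro C _
  obtain ⟨κ, hκ, m, hm, z, hz⟩ := h C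
  refine ⟨κ, hκ, m, hm, z, fun χ => ?_⟩
  obtain ⟨f, hf1, hf2⟩ := hz χ
  exact ⟨fun i => f (e i), fun i j => by rw [hf1, hδ], fun i j hij => hf2 _ _ (hR i j hij)⟩

theorem Hom.eqvGen {ι : Type} {δ : ι → ι → ℝ} {R : ι → ι → Prop} (h : Hom δ R) :
    Hom δ (Relation.EqvGen R) := by
  intro C _
  obtain ⟨κ, hκ, m, hm, z, hz⟩ := h C
  refine ⟨κ, hκ, m, hm, z, fun χ => ?_⟩
  obtain ⟨f, hf1, hf2⟩ := hz χ
  refine ⟨f, hf1, fun i j hij => ?_⟩
  induction hij with
  | rel x y hxy => exact hf2 x y hxy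
  | refl x => rfl
  | symm x y _ ih => exact ih.symm
  | trans x y z _ _ ih1 ih2 => exact ih1.trans ih2

theorem Hom.base {ι m : Type} [Fintype ι] [Fintype m] (z : ι → m → ℝ) :
    Hom (fun i j => sqd (z i) (z j)) (fun i j => i = j) := by
  intro C _
  exact ⟨ι, inferInstance, m, inferInstance, z, fun χ => ⟨id, fun i j => rfl,
    fun i j h => by rw [h]⟩⟩

theorem Hom.prod {ι₁ ι₂ : Type} [Fintype ι₁] [Fintype ι₂] {δ₁ : ι₁ → ι₁ → ℝ}
    {δ₂ : ι₂ → ι₂ → ℝ}
    {R₁ : ι₁ → ι₁ → Prop} {R₂ : ι₂ → ι₂ → Prop} (h₁ : Hom δ₁ R₁) (h₂ : Hom δ₂ R₂) :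
    Hom (fun (a b : ι₁ × ι₂) => δ₁ a.1 b.1 + δ₂ a.2 b.2)
      (fun a b => (R₁ a.1 b.1 ∧ a.2 = b.2) ∨ (a.1 = b.1 ∧ R₂ a.2 b.2)) := by
  intro C _
  obtain ⟨κ₁, hκ₁, m₁, hm₁, z₁, hz₁⟩ := h₁ (ι₂ → C)
  obtain ⟨κ₂, hκ₂, m₂, hm₂, z₂, hz₂⟩ := h₂ (κ₁ → C)
  refine ⟨κ₁ × κ₂, inferInstance, m₁ ⊕ m₂, inferInstance,
    fun a => Sum.elim (z₁ a.1) (z₂ a.2), fun χ => ?_⟩
  obtain ⟨f₂, hf₂, hc₂⟩ := hz₂ (fun b a => χ (a, b))
  obtain ⟨f₁, hf₁, hc₁⟩ := hz₁ (fun a i => χ (a, f₂ i))
  refine ⟨fun a => (f₁ a.1, f₂ a.2), ?_, ?_⟩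
  · intro a b
    unfold sqd
    rw [Fintype.sum_sum_type]
    simp only [Sum.elim_inl, Sum.elim_inr]
    rw [← hf₁ a.1 b.1, ← hf₂ a.2 b.2]
    rfl
  · rintro ⟨a1, a2⟩ ⟨b1, b2⟩ (⟨h, h'⟩ | ⟨h, h'⟩)
    · simp only at h h'
      subst h'
      exact congrFun (hc₁ _ _ h) a2
    · simp only at h h'
      subst h
      exact congrFun (hc₂ _ _ h') (f₁ a1)

theorem Hom.pow {ι : Type} [Fintype ι] {δ : ι → ι → ℝ} {R : ι → ι → Prop} (h : Hom δ R)
    (K : ℕ) : Hom (fun (a b : Fin K → ι) => ∑ s, δ (a s) (b s))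
      (fun a b => ∃ s, R (a s) (b s) ∧ ∀ s', s' ≠ s → a s' = b s') := by
  induction K with
  | zero =>
    intro C _
    refine ⟨Unit, inferInstance, Empty, inferInstance, fun _ e => e.elim, fun χ => ?_⟩
    refine ⟨fun _ => (), fun i j => ?_, fun i j _ => rfl⟩
    simp [sqd]
  | succ K ih =>
    refine (h.prod ih).pull (fun a => (a 0, fun s => a s.succ)) ?_ ?_
    · intro a b
      rw [Fin.sum_univ_succ]
    · rintro a b ⟨s, hs, hs'⟩
      refine Fin.cases (motive := fun s => R (a s) (b s) → (∀ s', s' ≠ s → a s' = b s') → _)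
        ?_ ?_ s hs hs'
      · intro h1 h2
        left
        exact ⟨h1, funext fun s => h2 _ (Fin.succ_ne_zero s)⟩
      · intro s h1 h2
        right
        refine ⟨h2 0 (Fin.succ_ne_zero s).symm, s, h1, fun s' hs' => h2 _ ?_⟩
        intro hh
        exact hs' (Fin.succ_injective _ hh)

/-- Adding one pair `w ~ g w`. -/
theorem Hom.step_one {ι : Type} [Fintype ι] {δ : ι → ι → ℝ} (hδ0 : ∀ i, δ i i = 0)
    {E : ι → ι → Prop} (hE : Equivalence E) (g : ι → ι)
    (hg : ∀ i j, δ (g i) (g j) = δ i j) (hgE : ∀ i j, E i j → E (g i) (g j))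
    (hgg : ∀ i, E i (g (g i)))
    (h : ∀ c : ℝ, 0 < c → Hom (fun i j => c * δ i j) E) (w : ι) :
    ∀ c : ℝ, 0 < c → Hom (fun i j => c * δ i j) (fun i j => E i j ∨ (i = w ∧ j = g w)) := by
  intro c hc C _
  have : Fintype C := Fintype.ofFinite C
  set K := Fintype.card C + 1 with hK
  obtain ⟨κ, hκ, m, hm, z, hz⟩ := ((h (c / 2) (by positivity)).pow K) C
  refine ⟨κ, hκ, m, hm, z, fun χ => ?_⟩
  obtain ⟨F, hF1, hF2⟩ := hz χ
  -- pigeonhole
  obtain ⟨i, j, hij, hcol⟩ : ∃ i j : Fin K, i ≠ j ∧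
      χ (F (Function.update (fun _ => g w) i w)) = χ (F (Function.update (fun _ => g w) j w)) := by
    apply Fintype.exists_ne_map_eq_of_card_lt
      (fun i : Fin K => χ (F (Function.update (fun _ => g w) i w)))
    simp [hK]
  -- the new copy
  set U : ι → Fin K → ι := fun x =>
    Function.update (Function.update (fun _ => g w) i x) j (g x) with hU
  have hUi : ∀ x, U x i = x := by
    intro x; simp only [hU]
    rw [Function.update_of_ne hij, Function.update_self]
  have hUj : ∀ x, U x j = g x := by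
    intro x; simp only [hU]
    rw [Function.update_self]
  have hUo : ∀ x s, s ≠ i → s ≠ j → U x s = g w := by
    intro x s h1 h2; simp only [hU]
    rw [Function.update_of_ne h2, Function.update_of_ne h1]
  have hstep : ∀ (a b : Fin K → ι) (s : Fin K), E (a s) (b s) → (∀ s', s' ≠ s → a s' = b s') →
      χ (F a) = χ (F b) := fun a b s h1 h2 => hF2 a b ⟨s, h1, h2⟩
  have htwo : ∀ (a b : Fin K → ι), E (a i) (b i) → E (a j) (b j) →
      (∀ s, s ≠ i → s ≠ j → a s = b s) → χ (F a) = χ (F b) := by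
    intro a b h1 h2 h3
    rw [hstep a (Function.update a i (b i)) i (by rw [Function.update_self]; exact h1)
      (fun s hs => by rw [Function.update_of_ne hs])]
    apply hstep _ b j
    · rw [Function.update_of_ne hij.symm]; exact h2
    · intro s hs
      by_cases hsi : s = i
      · subst hsi; rw [Function.update_self]
      · rw [Function.update_of_ne hsi]; exact h3 s hsi hs
  refine ⟨fun x => F (U x), ?_, ?_⟩
  · intro x y
    rw [hF1]
    show ∑ s, c / 2 * δ (U x s) (U y s) = c * δ x y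
    have h1 : ∀ s, c / 2 * δ (U x s) (U y s)
        = (if s = i then c / 2 * δ x y else 0) + (if s = j then c / 2 * δ x y else 0) := by
      intro s
      by_cases hsi : s = i
      · subst hsi
        rw [hUi, hUi, if_pos rfl, if_neg hij]; ring
      · by_cases hsj : s = j
        · subst hsj
          rw [hUj, hUj, hg, if_neg hsi, if_pos rfl]; ring
        · rw [hUo x s hsi hsj, hUo y s hsi hsj, hδ0, if_neg hsi, if_neg hsj]; ring
    rw [sum_congr rfl (fun s _ => h1 s), sum_add_distrib, sum_ite_eq', sum_ite_eq',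
      if_pos (mem_univ _), if_pos (mem_univ _)]
    ring
  · rintro x y (hxy | ⟨rfl, rfl⟩)
    · apply htwo
      · rw [hUi, hUi]; exact hxy
      · rw [hUj, hUj]; exact hgE _ _ hxy
      · intro s h1 h2; rw [hUo x s h1 h2, hUo y s h1 h2]
    · have e1 : χ (F (U x)) = χ (F (Function.update (fun _ => g x) i x)) := by
        congr 2
        funext s
        by_cases hsi : s = i
        · subst hsi; rw [hUi, Function.update_self]
        · rw [Function.update_of_ne hsi]
          by_cases hsj : s = j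
          · subst hsj; rw [hUj]
          · rw [hUo x s hsi hsj]
      have e2 : χ (F (U (g x))) = χ (F (Function.update (fun _ => g x) j x)) := by
        apply htwo
        · rw [hUi, Function.update_of_ne hij]; exact hE.refl _
        · rw [hUj, Function.update_self]; exact hE.symm (hgg x)
        · intro s h1 h2
          rw [hUo _ s h1 h2, Function.update_of_ne h2]
      rw [e1, e2]; exact hcol

/-- Adding the relation `i ~ g i` for all `i`. -/
theorem Hom.step {ι : Type} [Fintype ι] {δ : ι → ι → ℝ} (hδ0 : ∀ i, δ i i = 0)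
    {E : ι → ι → Prop} (g : ι → ι)
    (hg : ∀ i j, δ (g i) (g j) = δ i j) (hgE : ∀ i j, E i j → E (g i) (g j))
    (hgg : ∀ i, E i (g (g i)))
    (h : ∀ c : ℝ, 0 < c → Hom (fun i j => c * δ i j) E) :
    ∀ c : ℝ, 0 < c → Hom (fun i j => c * δ i j)
      (Relation.EqvGen (fun i j => E i j ∨ j = g i)) := by
  have main : ∀ W : Finset ι, ∀ c : ℝ, 0 < c → Hom (fun i j => c * δ i j)
      (Relation.EqvGen (fun i j => E i j ∨ (i ∈ W ∧ j = g i))) := by
    intro W
    induction W using Finset.induction_on with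
    | empty =>
      intro c hc
      refine ((h c hc).eqvGen).pull id (fun _ _ => rfl) (fun i j hij => ?_)
      refine Relation.EqvGen.mono (fun a b hab => ?_) _ _ hij
      rcases hab with hab | ⟨hab, _⟩
      · exact hab
      · exact absurd hab (notMem_empty _)
    | insert w W hw ih =>
      intro c hc
      set E' := Relation.EqvGen (fun i j => E i j ∨ (i ∈ W ∧ j = g i)) with hE'
      have hEE' : ∀ i j, E i j → E' i j := fun i j hij => Relation.EqvGen.rel _ _ (Or.inl hij)
      have hE'e : Equivalence E' := Relation.EqvGen.is_equivalence _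
      have hgE' : ∀ i j, E' i j → E' (g i) (g j) := by
        intro i j hij
        induction hij with
        | rel x y hxy =>
          rcases hxy with hxy | ⟨hx, rfl⟩
          · exact hEE' _ _ (hgE _ _ hxy)
          · have h1 : E' x (g x) := Relation.EqvGen.rel _ _ (Or.inr ⟨hx, rfl⟩)
            exact hE'e.trans (hE'e.symm h1) (hEE' _ _ (hgg x))
        | refl x => exact hE'e.refl _
        | symm x y _ ih => exact hE'e.symm ih
        | trans x y z _ _ ih1 ih2 => exact hE'e.trans ih1 ih2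
      have := Hom.step_one hδ0 hE'e g hg hgE' (fun i => hEE' _ _ (hgg i)) ih w c hc
      refine this.eqvGen.pull id (fun _ _ => rfl) (fun i j hij => ?_)
      refine Relation.EqvGen.mono (fun a b hab => ?_) _ _ hij
      rcases hab with hab | ⟨hab, hb⟩
      · exact Or.inl (hEE' _ _ hab)
      · rcases mem_insert.1 hab with rfl | hab
        · exact Or.inr ⟨rfl, hb⟩
        · exact Or.inl (Relation.EqvGen.rel _ _ (Or.inr ⟨hab, hb⟩))
  intro c hc
  refine (main univ c hc).pull id (fun _ _ => rfl) (fun i j hij => ?_)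
  refine Relation.EqvGen.mono (fun a b hab => ?_) _ _ hij
  rcases hab with hab | hab
  · exact Or.inl hab
  · exact Or.inr ⟨mem_univ _, hab⟩

end Vale.Agent.H8.P058
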