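import Vale.Agent.H8.P058Shift

open Finset
open scoped Classical

namespace Vale.Agent.H8.P058

/-- the weights -/
noncomputable def gs (t : ℝ) : ℕ → ℝ
  | 0 => 1
  | 1 => 1 - t ^ 2
  | n + 2 => gs t (n + 1) - t ^ 2 * gs t n

theorem gs_pos {t : ℝ} (h0 : 0 < t) (h1 : t ≤ 1 / 2) (n : ℕ) :
    0 < gs t n ∧ gs t n / 2 ≤ gs t (n + 1) := by
  have ht2 : t ^ 2 ≤ 1 / 4 := by nlinarith
  induction n with
  | zero => simp only [gs]; constructor <;> nlinarith
  | succ n ih =>
    obtain ⟨ih1, ih2⟩ := ih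
    have h3 : 0 < gs t (n + 1) := by linarith
    refine ⟨h3, ?_⟩
    have h4 : gs t (n + 1 + 1) = gs t (n + 1) - t ^ 2 * gs t n := rfl
    rw [h4]
    nlinarith [mul_le_mul_of_nonneg_right ht2 ih1.le]

/-- partial energies -/
noncomputable def cs (t : ℝ) (k : ℕ) : ℝ :=
  ∑ l ∈ range k, gs t l * ∑ i ∈ range (k - l), t ^ (2 * (i + 1))

theorem cs_succ (t : ℝ) (k : ℕ) :
    cs t (k + 1) = t ^ 2 * (cs t k + ∑ l ∈ range (k + 1), gs t l) := by
  unfold cs
  have h1 : ∀ l ∈ range (k + 1), gs t l * ∑ i ∈ range (k + 1 - l), t ^ (2 * (i + 1))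
      = t ^ 2 * (gs t l * ∑ i ∈ range (k - l), t ^ (2 * (i + 1)) + gs t l) := by
    intro l hl
    have hl' : k + 1 - l = (k - l) + 1 := by
      have := mem_range.1 hl; omega
    rw [hl', sum_range_succ']
    have h2 : ∑ i ∈ range (k - l), t ^ (2 * (i + 1 + 1))
        = t ^ 2 * ∑ i ∈ range (k - l), t ^ (2 * (i + 1)) := by
      rw [mul_sum]
      refine sum_congr rfl fun i _ => ?_
      ring
    rw [h2]; ring
  rw [sum_congr rfl h1, ← mul_sum, sum_add_distrib]
  congr 2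
  rw [sum_range_succ]
  simp

theorem gs_add_cs (t : ℝ) (k : ℕ) : gs t k + cs t k = 1 ∧ gs t (k + 1) + cs t (k + 1) = 1 := by
  induction k with
  | zero =>
    constructor
    · simp [gs, cs]
    · simp [gs, cs]
  | succ k ih =>
    obtain ⟨ih1, ih2⟩ := ih
    refine ⟨ih2, ?_⟩
    have h1 := cs_succ t k
    have h2 := cs_succ t (k + 1)
    rw [sum_range_succ] at h2
    have h4 : gs t (k + 1 + 1) = gs t (k + 1) - t ^ 2 * gs t k := rfl
    rw [h4, h2]
    have h5 : t ^ 2 * (cs t (k + 1) + (∑ x ∈ range (k + 1), gs t x + gs t (k + 1)))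
        = cs t (k + 1) + t ^ 2 * (cs t (k + 1) + gs t (k + 1) - cs t k) := by
      nlinarith [h1]
    rw [h5]
    have e1 : cs t (k + 1) + gs t (k + 1) - cs t k = gs t k := by linarith
    rw [e1]
    linarith

/-- coordinates of the basic vectors -/
noncomputable def V (t : ℝ) (k l i : ℕ) : ℝ :=
  if 1 ≤ i ∧ i + l ≤ k then t ^ i * Real.sqrt (gs t l)
  else if i = 0 ∧ l = k then Real.sqrt (gs t k) else 0

theorem V_step (t : ℝ) {j k l i : ℕ} (hjk : j < k) (h : V t j l i ≠ 0) :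
    V t k l (i + 1) = t * V t j l i ∧ i ≤ j := by
  unfold V at h ⊢
  by_cases h1 : 1 ≤ i ∧ i + l ≤ j
  · rw [if_pos h1]
    rw [if_pos ⟨by omega, by omega⟩]
    exact ⟨by ring, by omega⟩
  · rw [if_neg h1] at h ⊢
    by_cases h2 : i = 0 ∧ l = j
    · rw [if_pos h2]
      obtain ⟨rfl, rfl⟩ := h2
      rw [if_pos ⟨by omega, by omega⟩]
      exact ⟨by ring, by omega⟩
    · rw [if_neg h2] at h
      exact absurd rfl h

theorem V_norm {t : ℝ} (h0 : 0 < t) (h1 : t ≤ 1 / 2) {r L k : ℕ} (hk : k ≤ r) (hL : r < L) :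
    ∑ l ∈ range (r + 1), ∑ i ∈ range L, V t k l i ^ 2 = 1 := by
  obtain ⟨L', rfl⟩ : ∃ L', L = L' + 1 := ⟨L - 1, by omega⟩
  have hin : ∀ l ∈ range (r + 1), ∑ i ∈ range (L' + 1), V t k l i ^ 2
      = gs t l * ∑ i ∈ range (k - l), t ^ (2 * (i + 1)) + (if l = k then gs t k else 0) := by
    intro l _
    rw [sum_range_succ']
    congr 1
    · have e1 : ∀ i ∈ range L', V t k l (i + 1) ^ 2
          = if i ∈ range (k - l) then gs t l * t ^ (2 * (i + 1)) else 0 := by
        intro i _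
        unfold V
        by_cases hi : i ∈ range (k - l)
        · have hi' := mem_range.1 hi
          rw [if_pos hi, if_pos ⟨by omega, by omega⟩, mul_pow,
            Real.sq_sqrt (gs_pos h0 h1 l).1.le]
          ring
        · have hi' : ¬ i < k - l := fun h => hi (mem_range.2 h)
          rw [if_neg hi, if_neg (by omega), if_neg (by omega)]
          ring
      rw [sum_congr rfl e1, sum_ite_mem, mul_sum]
      congr 1
      ext i
      simp only [mem_inter, mem_range]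
      omega
    · unfold V
      rw [if_neg (by omega)]
      by_cases hl : l = k
      · rw [if_pos hl, if_pos ⟨rfl, hl⟩, Real.sq_sqrt (gs_pos h0 h1 k).1.le]
      · rw [if_neg hl, if_neg (by omega)]; ring
  rw [sum_congr rfl hin, sum_add_distrib, sum_ite_eq' (range (r + 1)) k (fun _ => gs t k),
    if_pos (mem_range.2 (by omega))]
  have e2 : ∑ l ∈ range (r + 1), gs t l * ∑ i ∈ range (k - l), t ^ (2 * (i + 1)) = cs t k := by
    unfold cs
    symm
    apply sum_subset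
    · intro l hl; simp only [mem_range] at hl ⊢; omega
    · intro l _ hl
      have : k - l = 0 := by simp only [mem_range] at hl; omega
      rw [this]; simp
  rw [e2]
  linarith [(gs_add_cs t k).1]

theorem sum_zmod {L : ℕ} (hL : 0 < L) [NeZero L] (f : ℕ → ℝ) :
    ∑ c : ZMod L, f c.val = ∑ i ∈ range L, f i := by
  cases L with
  | zero => omega
  | succ n =>
    exact Fin.sum_univ_eq_sum_range f (n + 1)

theorem kite_core {t : ℝ} (h0 : 0 < t) (h1 : t ≤ 1 / 2) (r : ℕ) :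
    ∃ (κ : Type) (m : Type) (_ : Fintype m) (z : κ → m → ℝ), ∀ χ : κ → Fin r,
      ∃ A B C D : κ, (χ B = χ A ∧ χ C = χ A ∧ χ D = χ A) ∧
        sqd (z A) (z C) = 4 ∧ sqd (z A) (z B) = 2 + 2 * t ∧ sqd (z A) (z D) = 2 + 2 * t ∧
        sqd (z B) (z C) = 2 - 2 * t ∧ sqd (z C) (z D) = 2 - 2 * t ∧
        sqd (z B) (z D) = 4 * (1 - t ^ 2) := by
  set a := r + 2 with ha
  have hLr : r + 2 < 2 ^ a := Nat.lt_two_pow_self
  have hne : NeZero (2 ^ a) := ⟨by positivity⟩
  have hfact : Fact (1 < 2 ^ a) := ⟨by omega⟩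
  let T := Bool × Fin (r + 1) × Fin (r + 1) × ZMod (2 ^ a)
  let v : T → ℝ := fun τ => (if τ.1 then -1 else 1) * V t τ.2.1.val τ.2.2.1.val τ.2.2.2.val
  let ν : T → T := fun τ => (!τ.1, τ.2)
  have hν : ∀ τ, ν (ν τ) = τ := by intro τ; simp [ν]
  have hv : ∀ τ, v (ν τ) = - v τ := by
    rintro ⟨b, q⟩; cases b <;> simp [v, ν]
  have key := hom_shift (M := Fin (r + 1)) v ν hν hv a a 0 (by omega) 1 one_pos (Fin r)
  obtain ⟨κ, _, m, hm, z, hz⟩ := key
  refine ⟨κ, m, hm, z, fun χ => ?_⟩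
  obtain ⟨f, hf1, hf2⟩ := hz χ
  let X : Fin (r + 1) → (Fin (r + 1) × ZMod (2 ^ a) → T) := fun k p => (false, k, p.1, p.2)
  have hvX : ∀ k p, v (X k p) = V t k.val p.1.val p.2.val := by
    intro k p; simp [v, X]
  obtain ⟨j, k, hjk, hcol⟩ : ∃ j k : Fin (r + 1), j < k ∧ χ (f (X j)) = χ (f (X k)) := by
    obtain ⟨j, k, hne, heq⟩ := Fintype.exists_ne_map_eq_of_card_lt
      (fun k : Fin (r + 1) => χ (f (X k))) (by simp)
    rcases lt_or_gt_of_ne hne with h | h
    · exact ⟨j, k, h, heq⟩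
    · exact ⟨k, j, h, heq.symm⟩
  let C : Fin (r + 1) × ZMod (2 ^ a) → T := fun p => X j (p.1, p.2 - 1)
  let A : Fin (r + 1) × ZMod (2 ^ a) → T := fun p => ν (C p)
  let B : Fin (r + 1) × ZMod (2 ^ a) → T := X k
  let D : Fin (r + 1) × ZMod (2 ^ a) → T := fun p => if v (C p) = 0 then ν (B p) else B p
  have cC : χ (f (X j)) = χ (f C) := by
    apply hf2
    refine ⟨1, fun p => Or.inl ?_⟩
    simp [C]
  have cA : χ (f (X j)) = χ (f A) := by
    apply hf2
    refine ⟨1, fun p => Or.inr ?_⟩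
    simp [A, C, hν]
  have cD : χ (f (X k)) = χ (f D) := by
    apply hf2
    refine ⟨0, fun p => ?_⟩
    by_cases hp : v (C p) = 0
    · right; simp [D, hp, B, hν]
    · left; simp [D, hp, B]
  have hXnorm : ∀ k, ∑ p, v (X k p) ^ 2 = 1 := by
    intro k
    rw [Fintype.sum_prod_type]
    have e1 : ∀ l : Fin (r + 1), ∑ c : ZMod (2 ^ a), v (X k (l, c)) ^ 2
        = ∑ i ∈ range (2 ^ a), V t k.val l.val i ^ 2 := by
      intro l
      rw [← sum_zmod (by positivity) (fun i => V t k.val l.val i ^ 2)]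
      exact sum_congr rfl fun c _ => by rw [hvX]
    rw [sum_congr rfl (fun l _ => e1 l),
      Fin.sum_univ_eq_sum_range (fun l => ∑ i ∈ range (2 ^ a), V t k.val l i ^ 2) (r + 1)]
    exact V_norm h0 h1 (by have := k.2; omega) (by omega)
  have hCC : ∑ p, v (C p) ^ 2 = 1 := by
    rw [← hXnorm j]
    exact Fintype.sum_equiv ((Equiv.refl _).prodCongr (Equiv.subRight 1)) _ _ (fun p => rfl)
  have hBB : ∑ p, v (B p) ^ 2 = 1 := hXnorm k
  have hsupp : ∀ p, v (C p) ≠ 0 → v (B p) = t * v (C p) := by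
    intro p hp
    have e1 : v (C p) = V t j.val p.1.val (p.2 - 1).val := hvX _ _
    have e2 : v (B p) = V t k.val p.1.val p.2.val := hvX _ _
    rw [e1] at hp ⊢
    rw [e2]
    obtain ⟨h3, h4⟩ := V_step t (show j.val < k.val from hjk) hp
    have h5 : p.2.val = (p.2 - 1).val + 1 := by
      have h6 : ((p.2 - 1) + 1).val = (p.2 - 1).val + (1 : ZMod (2 ^ a)).val := by
        apply ZMod.val_add_of_lt
        rw [ZMod.val_one]
        have := j.2
        omega
      rw [ZMod.val_one, sub_add_cancel] at h6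
      exact h6
    rw [h5]; exact h3
  have hBC : ∀ p, v (B p) * v (C p) = t * v (C p) ^ 2 := by
    intro p
    by_cases hp : v (C p) = 0
    · rw [hp]; ring
    · rw [hsupp p hp]; ring
  have hD : ∀ p, v (D p) = 2 * t * v (C p) - v (B p) := by
    intro p
    by_cases hp : v (C p) = 0
    · simp only [D, if_pos hp]; rw [hv, hp]; ring
    · simp only [D, if_neg hp]; rw [hsupp p hp]; ring
  have hA : ∀ p, v (A p) = - v (C p) := fun p => hv _
  have dist : ∀ x y : Fin (r + 1) × ZMod (2 ^ a) → T,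
      sqd (z (f x)) (z (f y)) = ∑ p, (v (x p) - v (y p)) ^ 2 := by
    intro x y
    rw [hf1]; simp [dW]
  -- everything is a combination of `B² , C²`
  have lin : ∀ (F : Fin (r + 1) × ZMod (2 ^ a) → ℝ) (α β : ℝ),
      (∀ p, F p = α * v (B p) ^ 2 + β * v (C p) ^ 2) → ∑ p, F p = α + β := by
    intro F α β h
    rw [sum_congr rfl (fun p _ => h p), sum_add_distrib, ← mul_sum, ← mul_sum, hBB, hCC]
    ring
  refine ⟨f A, f B, f C, f D, ⟨?_, ?_, ?_⟩, ?_, ?_, ?_, ?_, ?_, ?_⟩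
  · rw [← cA, hcol]
  · rw [← cA, cC]
  · rw [← cA, ← cD, hcol]
  · rw [dist, lin _ 0 4]
    · ring
    · intro p; rw [hA]; ring
  · rw [dist, lin _ 1 (1 + 2 * t)]
    · ring
    · intro p; rw [hA]; linear_combination 2 * hBC p
  · rw [dist, lin _ 1 (1 + 2 * t)]
    · ring
    · intro p; rw [hA, hD]; linear_combination (-2 - 4 * t) * hBC p
  · rw [dist, lin _ 1 (1 - 2 * t)]
    · ring
    · intro p; linear_combination (-2) * hBC p
  · rw [dist, lin _ 1 (1 - 2 * t)]
    · ring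
    · intro p; rw [hD]; linear_combination (2 - 4 * t) * hBC p
  · rw [dist, lin _ 4 (- 4 * t ^ 2)]
    · ring
    · intro p; rw [hD]; linear_combination (- 8 * t) * hBC p

end Vale.Agent.H8.P058
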