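import Vale.Agent.H8.P058Defs

open Finset
open scoped Classical

namespace Vale.Agent.H8.P058

theorem exists_additive (t s : ℝ) (ht : Transcendental ℚ t) (hs : Transcendental ℚ s)
    (x0 : ℝ) (hx0 : x0 ≠ 0) :
    ∃ φ : ℝ →+ ℝ, (∀ x, φ (t * x) = s * φ x) ∧ φ x0 ≠ 0 := by
  have hinj : ∀ u : ℝ, Transcendental ℚ u →
      Function.Injective (Polynomial.aeval (R := ℚ) u).toRingHom := by
    intro u hu
    exact transcendental_iff_injective.1 hu
  let K := FractionRing (Polynomial ℚ)
  let ψt : K →+* ℝ := IsFractionRing.lift (hinj t ht)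
  let ψs : K →+* ℝ := IsFractionRing.lift (hinj s hs)
  have ht1 : ψt (algebraMap (Polynomial ℚ) K Polynomial.X) = t := by
    simp only [ψt]
    rw [IsFractionRing.lift_algebraMap]
    simp
  have hs1 : ψs (algebraMap (Polynomial ℚ) K Polynomial.X) = s := by
    simp only [ψs]
    rw [IsFractionRing.lift_algebraMap]
    simp
  let _ : Module K ℝ := Module.compHom ℝ ψt
  have hsmul : ∀ (k : K) (x : ℝ), k • x = ψt k * x := fun k x => rfl
  obtain ⟨φ, hφ⟩ : ∃ φ : Module.Dual K ℝ, φ x0 ≠ 0 := by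
    by_contra hcon
    push Not at hcon
    exact hx0 ((Module.forall_dual_apply_eq_zero_iff K x0).1 hcon)
  refine ⟨ψs.toAddMonoidHom.comp φ.toAddMonoidHom, fun x => ?_, ?_⟩
  · show ψs (φ (t * x)) = s * ψs (φ x)
    have h1 : t * x = (algebraMap (Polynomial ℚ) K Polynomial.X) • x := by
      rw [hsmul, ht1]
    rw [h1, map_smul, smul_eq_mul, map_mul, hs1]
  · show ψs (φ x0) ≠ 0
    exact (map_ne_zero ψs).2 hφ

/-- the distance preserving permutations of `X` -/
noncomputable def isoPerms {n : ℕ} (X : Finset (E n)) : Finset (Equiv.Perm X) :=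
  univ.filter (fun π => ∀ x y : X, dist (π x : E n) (π y : E n) = dist (x : E n) (y : E n))

theorem one_mem_isoPerms {n : ℕ} (X : Finset (E n)) : (1 : Equiv.Perm X) ∈ isoPerms X := by
  simp [isoPerms]

theorem sum_iso {n : ℕ} {X : Finset (E n)} (hX : IsTransitive X) (P Q : X) (F : X → ℝ) :
    ∑ π ∈ isoPerms X, F (π P) = ∑ π ∈ isoPerms X, F (π Q) := by
  obtain ⟨e, heX, heP⟩ := hX P P.2 Q Q.2
  have hmem : ∀ x : X, e x ∈ X := by
    intro x
    have : e x ∈ (X : Set (E n)) := by
      rw [← heX]; exact ⟨x, x.2, rfl⟩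
    exact this
  let ρ0 : X → X := fun x => ⟨e x, hmem x⟩
  have hinj : Function.Injective ρ0 := by
    intro x y h
    have h1 : e x = e y := congrArg Subtype.val h
    exact Subtype.ext (e.injective h1)
  let ρ : Equiv.Perm X := Equiv.ofBijective ρ0 (Finite.injective_iff_bijective.1 hinj)
  have hρ : ∀ x, (ρ x : E n) = e x := fun x => rfl
  have hρP : ρ P = Q := Subtype.ext (by rw [hρ]; exact heP)
  have hρd : ∀ x y : X, dist (ρ x : E n) (ρ y : E n) = dist (x : E n) (y : E n) := by
    intro x y; rw [hρ, hρ]; exact e.dist_eq _ _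
  symm
  refine Finset.sum_equiv (Equiv.mulRight ρ) ?_ ?_
  · intro π
    simp only [isoPerms, mem_filter, mem_univ, true_and, Equiv.coe_mulRight, Equiv.Perm.mul_apply]
    constructor
    · intro h x y; rw [h, hρd]
    · intro h x y
      have h1 := h (ρ.symm x) (ρ.symm y)
      have h2 := hρd (ρ.symm x) (ρ.symm y)
      rw [Equiv.apply_symm_apply, Equiv.apply_symm_apply] at h1 h2
      rw [h1, ← h2]
  · intro π _
    simp only [Equiv.coe_mulRight, Equiv.Perm.mul_apply, hρP]

theorem dist_sq_inner {n : ℕ} (x y : E n) :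
    dist x y ^ 2 = inner ℝ x x - 2 * inner ℝ x y + inner ℝ y y := by
  rw [dist_eq_norm, ← real_inner_self_eq_norm_sq, inner_sub_left, inner_sub_right,
    inner_sub_right, real_inner_comm x y]
  ring

theorem kite_rel0 {n : ℕ} {t : ℝ} {b c d : E n} (hac : inner ℝ c c = 4)
    (hab : inner ℝ b b = 2 + 2 * t) (had : inner ℝ d d = 2 + 2 * t)
    (hbc : inner ℝ b c = 2 + 2 * t) (hcd : inner ℝ d c = 2 + 2 * t)
    (hbd : inner ℝ b d = 2 * t + 2 * t ^ 2) :
    b + d = (1 + t) • c := by
  rw [← sub_eq_zero, ← inner_self_eq_zero (𝕜 := ℝ)]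
  simp only [inner_sub_left, inner_sub_right, inner_add_left, inner_add_right,
      inner_smul_left, inner_smul_right, conj_trivial]
  rw [real_inner_comm b c, real_inner_comm d c, real_inner_comm b d] 
  rw [hac, hab, had, hbc, hcd, hbd]
  ring

/-- the affine relation in the kite only depends on the distances -/
theorem kite_rel {n : ℕ} {t : ℝ} {a b c d : E n} (hac : dist a c ^ 2 = 4)
    (hab : dist a b ^ 2 = 2 + 2 * t) (had : dist a d ^ 2 = 2 + 2 * t)
    (hbc : dist b c ^ 2 = 2 - 2 * t) (hcd : dist c d ^ 2 = 2 - 2 * t)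
    (hbd : dist b d ^ 2 = 4 * (1 - t ^ 2)) :
    b + d = (1 - t) • a + (1 + t) • c := by
  have key : ∀ x y : E n, dist x y ^ 2 = inner ℝ (x - a) (x - a) - 2 * inner ℝ (x - a) (y - a)
      + inner ℝ (y - a) (y - a) := by
    intro x y
    rw [← dist_sub_right x y a, dist_sq_inner]
  have k1 := key a c
  have k2 := key a b
  have k3 := key a d
  have k4 := key b c
  have k5 := key d c
  have k6 := key b d
  rw [dist_comm d c] at k5
  simp only [sub_self, inner_zero_left] at k1 k2 k3
  have h := kite_rel0 (t := t) (b := b - a) (c := c - a) (d := d - a) (by linarith) (by linarith)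
    (by linarith) (by linarith) (by linarith) (by linarith)
  have e1 : b + d = ((b - a) + (d - a)) + (2 : ℝ) • a := by
    rw [two_smul]; abel
  rw [e1, h, smul_sub, sub_smul, add_smul, one_smul, add_smul, one_smul, two_smul]
  abel

/-- the weighted variance argument -/
theorem weighted_var {ι : Type} (s : Finset ι) (w : ℝ) (hw : 0 < w) (α β γ δ : ι → ℝ)
    (hrel : ∀ i ∈ s, (w + 2) * γ i = β i + δ i + w * α i)
    (hβ : ∑ i ∈ s, β i ^ 2 = ∑ i ∈ s, α i ^ 2) (hγ : ∑ i ∈ s, γ i ^ 2 = ∑ i ∈ s, α i ^ 2)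
    (hδ : ∑ i ∈ s, δ i ^ 2 = ∑ i ∈ s, α i ^ 2) : ∀ i ∈ s, γ i = α i := by
  have h0 : ∑ i ∈ s, ((β i - δ i) ^ 2 + w * (β i - α i) ^ 2 + w * (δ i - α i) ^ 2) = 0 := by
    have h1 : ∀ i ∈ s, (β i - δ i) ^ 2 + w * (β i - α i) ^ 2 + w * (δ i - α i) ^ 2
        = (w + 2) * (β i ^ 2 + δ i ^ 2 + w * α i ^ 2) - (w + 2) ^ 2 * γ i ^ 2 := by
      intro i hi
      have h2 : (w + 2) ^ 2 * γ i ^ 2 = (β i + δ i + w * α i) ^ 2 := by
        rw [← mul_pow, hrel i hi]
      rw [h2]; ring
    rw [sum_congr rfl h1, sum_sub_distrib, ← mul_sum, ← mul_sum, sum_add_distrib,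
      sum_add_distrib, ← mul_sum, hβ, hγ, hδ]
    ring
  have h3 := (sum_eq_zero_iff_of_nonneg (fun i _ => by positivity)).1 h0
  intro i hi
  have h4 := h3 i hi
  have h5 : (β i - α i) ^ 2 = 0 := by
    nlinarith [sq_nonneg (β i - δ i), sq_nonneg (β i - α i), sq_nonneg (δ i - α i),
      mul_nonneg hw.le (sq_nonneg (β i - α i)), mul_nonneg hw.le (sq_nonneg (δ i - α i))]
  have h6 : (δ i - α i) ^ 2 = 0 := by
    nlinarith [sq_nonneg (β i - δ i), sq_nonneg (β i - α i), sq_nonneg (δ i - α i),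
      mul_nonneg hw.le (sq_nonneg (β i - α i)), mul_nonneg hw.le (sq_nonneg (δ i - α i))]
  have h7 : β i = α i := by
    have := pow_eq_zero_iff (two_ne_zero) |>.1 h5
    linarith
  have h8 : δ i = α i := by
    have := pow_eq_zero_iff (two_ne_zero) |>.1 h6
    linarith
  have h9 := hrel i hi
  rw [h7, h8] at h9
  have h10 : (w + 2) * (γ i - α i) = 0 := by linarith
  rcases mul_eq_zero.1 h10 with h | h
  · linarith
  · linarith

/-- four points with the distances of a kite with transcendental `t` do not lie in a finite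
transitive set -/
theorem no_transitive {n : ℕ} {t : ℝ} (ht0 : 0 < t) (htr : Transcendental ℚ t)
    {X : Finset (E n)} (hX : IsTransitive X) (a b c d : X)
    (hac : dist (a : E n) c ^ 2 = 4)
    (hab : dist (a : E n) b ^ 2 = 2 + 2 * t) (had : dist (a : E n) d ^ 2 = 2 + 2 * t)
    (hbc : dist (b : E n) c ^ 2 = 2 - 2 * t) (hcd : dist (c : E n) d ^ 2 = 2 - 2 * t)
    (hbd : dist (b : E n) d ^ 2 = 4 * (1 - t ^ 2)) : False := by
  have hne : (a : E n) ≠ c := by
    intro h
    rw [h, dist_self] at hac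
    norm_num at hac
  obtain ⟨k, hk⟩ : ∃ k : Fin n, (a : E n) k ≠ (c : E n) k := by
    by_contra hcon
    push Not at hcon
    exact hne (by ext k; exact hcon k)
  have hs : Transcendental ℚ (t + 1) := by
    intro h
    apply htr
    have h1 : IsAlgebraic ℚ ((t + 1) - 1) := h.sub isAlgebraic_one
    simpa using h1
  obtain ⟨φ, hφt, hφ0⟩ := exists_additive t (t + 1) htr hs ((a : E n) k - (c : E n) k)
    (sub_ne_zero.2 hk)
  have main := weighted_var (isoPerms X) t ht0
    (fun π => φ ((π a : E n) k)) (fun π => φ ((π b : E n) k)) (fun π => φ ((π c : E n) k))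
    (fun π => φ ((π d : E n) k)) ?_
    (sum_iso hX b a (fun x => φ ((x : E n) k) ^ 2))
    (sum_iso hX c a (fun x => φ ((x : E n) k) ^ 2))
    (sum_iso hX d a (fun x => φ ((x : E n) k) ^ 2)) 1 (one_mem_isoPerms X)
  · simp only [Equiv.Perm.coe_one, id] at main
    apply hφ0
    rw [map_sub, main, sub_self]
  · intro π hπ
    have hπ' : ∀ x y : X, dist (π x : E n) (π y : E n) = dist (x : E n) (y : E n) := by
      simpa [isoPerms] using hπ
    have hrel := kite_rel (t := t) (a := (π a : E n)) (b := (π b : E n)) (c := (π c : E n))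
      (d := (π d : E n)) (by rw [hπ']; exact hac) (by rw [hπ']; exact hab)
      (by rw [hπ']; exact had) (by rw [hπ']; exact hbc) (by rw [hπ']; exact hcd)
      (by rw [hπ']; exact hbd)
    have h1 := congrArg (fun v : E n => φ (v k)) hrel
    simp only [PiLp.add_apply, PiLp.smul_apply, smul_eq_mul, map_add, sub_mul, one_mul,
      add_mul, map_sub, hφt] at h1
    linarith

end Vale.Agent.H8.P058
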