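import Vale.Agent.H8.P058Ramsey
import Vale.Agent.H8.P058Not

open Finset
open scoped Classical

namespace Vale.Agent.H8.P058

theorem not_subtransitive_kite {t : ℝ} (h0 : 0 < t) (h1 : t ≤ 1 / 2)
    (htr : Transcendental ℚ t) : ¬ IsSubtransitive (kite t) := by
  rintro ⟨n, X, hX, f, hf, hfX⟩
  set s := √(1 - t ^ 2) with hs
  have hs2 : s ^ 2 = 1 - t ^ 2 := Real.sq_sqrt (by nlinarith)
  have hd : ∀ a b c d : ℝ, dist (!₂[a, b] : E 2) (!₂[c, d] : E 2) ^ 2
      = (a - c) ^ 2 + (b - d) ^ 2 := by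
    intro a b c d
    rw [dist_two, Real.sq_sqrt (by positivity)]
  have mA : (!₂[-1, 0] : E 2) ∈ kite t := by simp [kite]
  have mC : (!₂[1, 0] : E 2) ∈ kite t := by simp [kite]
  have mB : (!₂[t, s] : E 2) ∈ kite t := by simp [kite, hs]
  have mD : (!₂[t, -s] : E 2) ∈ kite t := by simp [kite, hs]
  refine no_transitive h0 htr hX ⟨f ⟨_, mA⟩, hfX _⟩ ⟨f ⟨_, mB⟩, hfX _⟩ ⟨f ⟨_, mC⟩, hfX _⟩
    ⟨f ⟨_, mD⟩, hfX _⟩ ?_ ?_ ?_ ?_ ?_ ?_
  · simp only [hf]; rw [hd]; ring
  · simp only [hf]; rw [hd]; linear_combination hs2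
  · simp only [hf]; rw [hd]; linear_combination hs2
  · simp only [hf]; rw [hd]; linear_combination hs2
  · simp only [hf]; rw [hd]; linear_combination hs2
  · simp only [hf]; rw [hd]; linear_combination 4 * hs2

theorem exists_transcendental : ∃ t : ℝ, 0 < t ∧ t ≤ 1 / 2 ∧ Transcendental ℚ t := by
  by_contra hcon
  push Not at hcon
  have h1 : Set.Ioc (0 : ℝ) (1 / 2) ⊆ {x : ℝ | IsAlgebraic ℚ x} := by
    intro x hx
    by_contra h
    exact hcon x hx.1 hx.2 h
  have h2 : (Set.Ioc (0 : ℝ) (1 / 2)).Countable := (Algebraic.countable ℚ ℝ).mono h1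
  have h3 := Cardinal.mk_Ioc_real (a := 0) (b := 1 / 2) (by norm_num)
  have h4 := Cardinal.le_aleph0_iff_set_countable.2 h2
  rw [h3] at h4
  exact absurd h4 (not_le.2 Cardinal.aleph0_lt_continuum)

theorem isSpherical_kite {t : ℝ} (h0 : 0 < t) (h1 : t ≤ 1 / 2) : IsSpherical (kite t) := by
  have hs2 : √(1 - t ^ 2) ^ 2 = 1 - t ^ 2 := Real.sq_sqrt (by nlinarith)
  refine ⟨!₂[0, 0], 1, ?_⟩
  intro x hx
  simp only [kite, mem_insert, mem_singleton] at hx
  rw [← Real.sqrt_one]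
  rcases hx with rfl | rfl | rfl | rfl
  all_goals rw [dist_two]; congr 1; nlinarith

theorem vec_two_eq {a b c d : ℝ} (h : (!₂[a, b] : E 2) = !₂[c, d]) : a = c ∧ b = d := by
  have h0 := congrArg (fun v : E 2 => v 0) h
  have h1 := congrArg (fun v : E 2 => v 1) h
  simpa using ⟨h0, h1⟩

theorem card_kite {t : ℝ} (h0 : 0 < t) (h1 : t ≤ 1 / 2) : (kite t).card = 4 := by
  have hs2 : √(1 - t ^ 2) ^ 2 = 1 - t ^ 2 := Real.sq_sqrt (by nlinarith)
  have hs : √(1 - t ^ 2) ≠ 0 := by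
    intro h; rw [h] at hs2; nlinarith
  unfold kite
  rw [card_insert_of_notMem, card_insert_of_notMem, card_insert_of_notMem, card_singleton]
  · intro h
    have := vec_two_eq (mem_singleton.1 h)
    apply hs
    linarith [this.2]
  · intro h
    simp only [mem_insert, mem_singleton] at h
    rcases h with h | h
    · have := vec_two_eq h; linarith [this.1]
    · have := vec_two_eq h; linarith [this.1]
  · intro h
    simp only [mem_insert, mem_singleton] at h
    rcases h with h | h | h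
    · have := vec_two_eq h; linarith [this.1]
    · have := vec_two_eq h; linarith [this.1]
    · have := vec_two_eq h; linarith [this.1]

theorem lrw_disproof :
    (∀ t : ℝ, 0 < t → t ≤ 1 / 2 → IsRamsey (kite t)) ∧
    (∀ t : ℝ, 0 < t → t ≤ 1 / 2 → Transcendental ℚ t → ¬ IsSubtransitive (kite t)) ∧
    (∃ A : Finset (E 2), A.card = 4 ∧ IsSpherical A ∧ IsRamsey A ∧ ¬ IsSubtransitive A) ∧
    ¬ (∀ (d : ℕ) (A : Finset (E d)), A.Nonempty → (IsRamsey A ↔ IsSubtransitive A)) := by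
  obtain ⟨t, h0, h1, ht⟩ := exists_transcendental
  refine ⟨fun t h0 h1 => isRamsey_kite h0 h1, fun t h0 h1 ht => not_subtransitive_kite h0 h1 ht,
    ⟨kite t, card_kite h0 h1, isSpherical_kite h0 h1, isRamsey_kite h0 h1,
      not_subtransitive_kite h0 h1 ht⟩, fun h => ?_⟩
  exact not_subtransitive_kite h0 h1 ht
    ((h 2 (kite t) (isRamsey_kite h0 h1).1).1 (isRamsey_kite h0 h1))

end Vale.Agent.H8.P058
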