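import Vale.Agent.H8.P058Defs
import Vale.Agent.H8.P058Kite

open Finset
open scoped Classical

namespace Vale.Agent.H8.P058

/-- embedding of a real function on a finite type into `ℝ^D`, `D ≥ 1` -/
noncomputable def emb {m : Type} [Fintype m] (x : m → ℝ) : E (Fintype.card (Option m)) :=
  WithLp.toLp 2 (fun i => match (Fintype.equivFin (Option m)).symm i with
    | none => 0
    | some j => x j)

theorem dist_emb {m : Type} [Fintype m] (x y : m → ℝ) : dist (emb x) (emb y) = √(sqd x y) := by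
  rw [EuclideanSpace.dist_eq]
  congr 1
  let F : Option m → ℝ := fun o => match o with
    | none => (0 : ℝ)
    | some j => (x j - y j) ^ 2
  have h1 : ∀ i, dist (emb x i) (emb y i) ^ 2 = F ((Fintype.equivFin (Option m)).symm i) := by
    intro i
    rw [Real.dist_eq, sq_abs]
    simp only [emb, F]
    cases (Fintype.equivFin (Option m)).symm i with
    | none => simp
    | some j => simp
  rw [sum_congr rfl (fun i _ => h1 i)]
  rw [Equiv.sum_comp ((Fintype.equivFin (Option m)).symm) F, Fintype.sum_option]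
  simp [sqd, F]

theorem dist_two (a b c d : ℝ) :
    dist (!₂[a, b] : E 2) (!₂[c, d] : E 2) = √((a - c) ^ 2 + (b - d) ^ 2) := by
  rw [EuclideanSpace.dist_eq]
  simp [Fin.sum_univ_two, Real.dist_eq, sq_abs]

theorem sqd_self {m : Type} [Fintype m] (x : m → ℝ) : sqd x x = 0 := by simp [sqd]

theorem sqd_comm {m : Type} [Fintype m] (x y : m → ℝ) : sqd x y = sqd y x := by
  simp only [sqd]
  exact sum_congr rfl fun i _ => by ring

theorem isRamsey_kite {t : ℝ} (h0 : 0 < t) (h1 : t ≤ 1 / 2) : IsRamsey (kite t) := by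
  refine ⟨⟨!₂[-1, 0], by simp [kite]⟩, fun r _ => ?_⟩
  obtain ⟨κ, m, hm, z, hz⟩ := kite_core h0 h1 r
  refine ⟨Fintype.card (Option m), Fintype.card_pos, fun c => ?_⟩
  obtain ⟨A, B, C, D, ⟨cB, cC, cD⟩, hAC, hAB, hAD, hBC, hCD, hBD⟩ := hz (fun a => c (emb (z a)))
  set s := √(1 - t ^ 2) with hs
  have hs2 : s ^ 2 = 1 - t ^ 2 := Real.sq_sqrt (by nlinarith)
  let P1 : Fin 4 → ℝ := ![-1, 1, t, t]
  let P2 : Fin 4 → ℝ := ![0, 0, s, -s]
  let Q : Fin 4 → κ := ![A, C, B, D]
  have hQ : ∀ i j, sqd (z (Q i)) (z (Q j)) = (P1 i - P1 j) ^ 2 + (P2 i - P2 j) ^ 2 := by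
    intro i j
    fin_cases i <;> fin_cases j
    · show sqd (z A) (z A) = (-1 - -1) ^ 2 + (0 - 0) ^ 2
      rw [sqd_self]; ring
    · show sqd (z A) (z C) = (-1 - 1) ^ 2 + (0 - 0) ^ 2
      rw [hAC]; ring
    · show sqd (z A) (z B) = (-1 - t) ^ 2 + (0 - s) ^ 2
      rw [hAB]; linear_combination -hs2
    · show sqd (z A) (z D) = (-1 - t) ^ 2 + (0 - -s) ^ 2
      rw [hAD]; linear_combination -hs2
    · show sqd (z C) (z A) = (1 - -1) ^ 2 + (0 - 0) ^ 2
      rw [sqd_comm, hAC]; ring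
    · show sqd (z C) (z C) = (1 - 1) ^ 2 + (0 - 0) ^ 2
      rw [sqd_self]; ring
    · show sqd (z C) (z B) = (1 - t) ^ 2 + (0 - s) ^ 2
      rw [sqd_comm, hBC]; linear_combination -hs2
    · show sqd (z C) (z D) = (1 - t) ^ 2 + (0 - -s) ^ 2
      rw [hCD]; linear_combination -hs2
    · show sqd (z B) (z A) = (t - -1) ^ 2 + (s - 0) ^ 2
      rw [sqd_comm, hAB]; linear_combination -hs2
    · show sqd (z B) (z C) = (t - 1) ^ 2 + (s - 0) ^ 2
      rw [hBC]; linear_combination -hs2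
    · show sqd (z B) (z B) = (t - t) ^ 2 + (s - s) ^ 2
      rw [sqd_self]; ring
    · show sqd (z B) (z D) = (t - t) ^ 2 + (s - -s) ^ 2
      rw [hBD]; linear_combination -4 * hs2
    · show sqd (z D) (z A) = (t - -1) ^ 2 + (-s - 0) ^ 2
      rw [sqd_comm, hAD]; linear_combination -hs2
    · show sqd (z D) (z C) = (t - 1) ^ 2 + (-s - 0) ^ 2
      rw [sqd_comm, hCD]; linear_combination -hs2
    · show sqd (z D) (z B) = (t - t) ^ 2 + (-s - s) ^ 2
      rw [sqd_comm, hBD]; linear_combination -4 * hs2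
    · show sqd (z D) (z D) = (t - t) ^ 2 + (-s - -s) ^ 2
      rw [sqd_self]; ring
  have hK : ∀ x : kite t, ∃ i : Fin 4, (x : E 2) = !₂[P1 i, P2 i] := by
    rintro ⟨x, hx⟩
    simp only [kite, mem_insert, mem_singleton] at hx
    rcases hx with rfl | rfl | rfl | rfl
    · exact ⟨0, rfl⟩
    · exact ⟨1, rfl⟩
    · exact ⟨2, rfl⟩
    · exact ⟨3, rfl⟩
  choose ix hix using hK
  refine ⟨fun x => emb (z (Q (ix x))), fun x y => ?_, c (emb (z A)), fun x => ?_⟩
  · rw [dist_emb, hQ, hix x, hix y, dist_two]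
  · have : ∀ i, c (emb (z (Q i))) = c (emb (z A)) := by
      intro i
      fin_cases i
      · rfl
      · exact cC
      · exact cB
      · exact cD
    exact this _

end Vale.Agent.H8.P058
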