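import Vale.Agent.H8.P058Hom

open Finset
open scoped Classical

namespace Vale.Agent.H8.P058

/-- squared distance between two words, letters being sent to reals by `v` -/
noncomputable def dW {T P : Type} [Fintype P] (v : T → ℝ) (x y : P → T) : ℝ :=
  ∑ p, (v (x p) - v (y p)) ^ 2

theorem hom_base_c {T P : Type} [Fintype T] [Fintype P] (v : T → ℝ) (c : ℝ) (hc : 0 < c) :
    Hom (fun x y : P → T => c * dW v x y) (fun x y => x = y) := by
  have := Hom.base (fun (x : P → T) p => Real.sqrt c * v (x p))
  refine this.pull id ?_ (fun _ _ h => h)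
  intro x y
  simp only [dW, sqd, id, mul_sum]
  refine sum_congr rfl fun p _ => ?_
  rw [← mul_sub, mul_pow, Real.sq_sqrt hc.le]

/-- all sign flips -/
theorem hom_flip {T P : Type} [Fintype T] [Fintype P] (v : T → ℝ) (ν : T → T)
    (hν : ∀ τ, ν (ν τ) = τ) (hv : ∀ τ, v (ν τ) = - v τ) (Q : Finset P) :
    ∀ c : ℝ, 0 < c → Hom (fun x y : P → T => c * dW v x y)
      (fun x y => ∀ p, x p = y p ∨ (p ∈ Q ∧ x p = ν (y p))) := by
  induction Q using Finset.induction_on with
  | empty =>
    intro c hc
    refine (hom_base_c v c hc).pull id (fun _ _ => rfl) (fun x y h => ?_)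
    funext p
    rcases h p with h | ⟨h, _⟩
    · exact h
    · exact absurd h (notMem_empty _)
  | insert q Q hq ih =>
    intro c hc
    set g : (P → T) → (P → T) := fun x => Function.update x q (ν (x q)) with hg
    have hgq : ∀ x, g x q = ν (x q) := fun x => by simp only [hg]; rw [Function.update_self]
    have hgo : ∀ x p, p ≠ q → g x p = x p := fun x p hp => by
      simp only [hg]; rw [Function.update_of_ne hp]
    have hgg : ∀ x, g (g x) = x := by
      intro x
      funext p
      by_cases hp : p = q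
      · subst hp; rw [hgq, hgq, hν]
      · rw [hgo _ _ hp, hgo _ _ hp]
    have key := Hom.step (δ := fun x y : P → T => dW v x y)
      (E := fun x y => ∀ p, x p = y p ∨ (p ∈ Q ∧ x p = ν (y p)))
      (fun x => by simp [dW]) g ?_ ?_ ?_ ih c hc
    · refine key.pull id (fun _ _ => rfl) (fun x y h => ?_)
      simp only [id]
      rcases h q with hxq | ⟨_, hxq⟩
      · refine Relation.EqvGen.rel _ _ (Or.inl fun p => ?_)
        rcases h p with h | ⟨h1, h2⟩
        · exact Or.inl h
        · rcases mem_insert.1 h1 with rfl | h1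
          · exact Or.inl hxq
          · exact Or.inr ⟨h1, h2⟩
      · refine Relation.EqvGen.trans _ (g x) _ (Relation.EqvGen.rel _ _ (Or.inr rfl))
          (Relation.EqvGen.rel _ _ (Or.inl fun p => ?_))
        by_cases hp : p = q
        · subst hp
          left
          rw [hgq, hxq, hν]
        · rw [hgo _ _ hp]
          rcases h p with h | ⟨h1, h2⟩
          · exact Or.inl h
          · exact Or.inr ⟨(mem_insert.1 h1).resolve_left hp, h2⟩
    · intro x y
      simp only [dW]
      refine sum_congr rfl fun p _ => ?_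
      by_cases hp : p = q
      · subst hp
        rw [hgq, hgq, hv, hv]; ring
      · rw [hgo _ _ hp, hgo _ _ hp]
    · intro x y h p
      by_cases hp : p = q
      · subst hp
        rw [hgq, hgq]
        rcases h p with h | ⟨h1, h2⟩
        · left; rw [h]
        · exact absurd h1 hq
      · rw [hgo _ _ hp, hgo _ _ hp]
        exact h p
    · intro x p
      left
      rw [hgg]

/-- sign flips and cyclic shifts -/
theorem hom_shift {T M : Type} [Fintype T] [Fintype M] (v : T → ℝ) (ν : T → T)
    (hν : ∀ τ, ν (ν τ) = τ) (hv : ∀ τ, v (ν τ) = - v τ) (a : ℕ) (i : ℕ) :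
    ∀ k, k + i = a → ∀ c : ℝ, 0 < c → Hom (fun x y : M × ZMod (2 ^ a) → T => c * dW v x y)
      (fun x y => ∃ j : ℕ, ∀ p : M × ZMod (2 ^ a),
        x (p.1, p.2 - ((2 ^ k * j : ℕ) : ZMod (2 ^ a))) = y p ∨
        x (p.1, p.2 - ((2 ^ k * j : ℕ) : ZMod (2 ^ a))) = ν (y p)) := by
  induction i with
  | zero =>
    rintro k hk c hc
    have hk' : k = a := by omega
    subst hk'
    refine (hom_flip v ν hν hv univ c hc).pull id (fun _ _ => rfl) (fun x y => ?_)
    rintro ⟨j, hj⟩ p
    have h := hj p
    have h0 : ((2 ^ k * j : ℕ) : ZMod (2 ^ k)) = 0 := by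
      rw [Nat.cast_mul, ZMod.natCast_self, zero_mul]
    rw [h0, sub_zero] at h
    rcases h with h | h
    · exact Or.inl h
    · exact Or.inr ⟨mem_univ _, h⟩
  | succ i ih =>
    intro k hk c hc
    have ih' := ih (k + 1) (by omega)
    set d : ZMod (2 ^ a) := ((2 ^ k : ℕ) : ZMod (2 ^ a)) with hd
    set g : (M × ZMod (2 ^ a) → T) → (M × ZMod (2 ^ a) → T) :=
      fun x p => x (p.1, p.2 - d) with hg
    have key := Hom.step (δ := fun x y : M × ZMod (2 ^ a) → T => dW v x y)
      (E := fun x y => ∃ j : ℕ, ∀ p : M × ZMod (2 ^ a),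
        x (p.1, p.2 - ((2 ^ (k + 1) * j : ℕ) : ZMod (2 ^ a))) = y p ∨
        x (p.1, p.2 - ((2 ^ (k + 1) * j : ℕ) : ZMod (2 ^ a))) = ν (y p))
      (fun x => by simp [dW]) g ?_ ?_ ?_ ih' c hc
    · refine key.pull id (fun _ _ => rfl) (fun x y h => ?_)
      obtain ⟨j, hj⟩ := h
      simp only [id]
      obtain ⟨j', rfl | rfl⟩ := Nat.even_or_odd' j
      · refine Relation.EqvGen.rel _ _ (Or.inl ⟨j', fun p => ?_⟩)
        have h := hj p
        have e : 2 ^ (k + 1) * j' = 2 ^ k * (2 * j') := by ring
        rw [e]; exact h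
      · refine Relation.EqvGen.trans _ (g x) _ (Relation.EqvGen.rel _ _ (Or.inr rfl))
          (Relation.EqvGen.rel _ _ (Or.inl ⟨j', fun p => ?_⟩))
        have h := hj p
        have e : p.2 - ((2 ^ (k + 1) * j' : ℕ) : ZMod (2 ^ a)) - d
            = p.2 - ((2 ^ k * (2 * j' + 1) : ℕ) : ZMod (2 ^ a)) := by
          rw [hd]; push_cast; ring
        simp only [hg]
        rw [e]; exact h
    · intro x y
      simp only [dW, hg]
      exact Fintype.sum_equiv ((Equiv.refl M).prodCongr (Equiv.subRight d)) _ _ (fun p => rfl)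
    · rintro x y ⟨j, hj⟩
      refine ⟨j, fun p => ?_⟩
      have h := hj (p.1, p.2 - d)
      simp only [hg]
      rw [sub_right_comm]
      exact h
    · intro x
      refine ⟨1, fun p => Or.inl ?_⟩
      simp only [hg]
      congr 2
      rw [hd]; push_cast; ring

end Vale.Agent.H8.P058
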