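import Vale.Agent.H8.P058Defs2
import Vale.Agent.H8.P058Deriv
import Vale.Agent.H8.P058Main

open Finset
open scoped Classical

namespace Vale.Agent.H8.P058

/-- Affine relations are preserved by distance preserving maps. -/
theorem affine_transfer {ι : Type} {n d : ℕ} (s : Finset ι) (l : ι → ℝ) (hl : ∑ i ∈ s, l i = 0)
    (P : ι → E n) (Q : ι → E d) (h : ∀ i j, dist (Q i) (Q j) = dist (P i) (P j))
    (hP : ∑ i ∈ s, l i • P i = 0) : ∑ i ∈ s, l i • Q i = 0 := by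
  have h1 := inner_sum_smul_sum_smul_of_sum_eq_zero P hl P hl
  have h2 := inner_sum_smul_sum_smul_of_sum_eq_zero Q hl Q hl
  simp only [← dist_eq_norm, h] at h1 h2
  rw [← h1, hP, inner_zero_left] at h2
  exact inner_self_eq_zero.1 h2

theorem twelve_identity {a b : ℝ} (hab : a ^ 2 + b ^ 2 = 1) (D : Derivation ℚ ℝ ℝ)
    {d : ℕ} (Y : ℝ → ℝ → E d)
    (hY : ∀ x₁ x₂ x₃ x₄ : ℝ, !₂[x₁, x₂] ∈ twelve a b → !₂[x₃, x₄] ∈ twelve a b →
      dist (Y x₁ x₂) (Y x₃ x₄) = dist (!₂[x₁, x₂] : E 2) (!₂[x₃, x₄] : E 2))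
    (G : E d → ℝ) (hG : ∀ y, G y = ∑ k, (D (y k)) ^ 2) :
    G (Y a b) + G (Y a (-b)) + G (Y (-a) b) + G (Y (-a) (-b))
      + G (Y b a) + G (Y b (-a)) + G (Y (-b) a) + G (Y (-b) (-a))
      - 2 * (G (Y 1 0) + G (Y (-1) 0) + G (Y 0 1) + G (Y 0 (-1)))
      = 8 * (D a ^ 2 + D b ^ 2) := by
  have m1 : (!₂[1, 0] : E 2) ∈ twelve a b := by simp [twelve]
  have m2 : (!₂[-1, 0] : E 2) ∈ twelve a b := by simp [twelve]
  have m3 : (!₂[0, 1] : E 2) ∈ twelve a b := by simp [twelve]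
  have m4 : (!₂[0, -1] : E 2) ∈ twelve a b := by simp [twelve]
  -- affine formula
  have aff : ∀ x₁ x₂ : ℝ, !₂[x₁, x₂] ∈ twelve a b → ∀ k, Y x₁ x₂ k =
      (1 + x₁) / 2 * Y 1 0 k + (1 - x₁) / 2 * Y (-1) 0 k + x₂ / 2 * Y 0 1 k
        - x₂ / 2 * Y 0 (-1) k := by
    intro x₁ x₂ hx k
    let u : Fin 5 → ℝ := ![x₁, 1, -1, 0, 0]
    let v : Fin 5 → ℝ := ![x₂, 0, 0, 1, -1]
    have hm : ∀ i, !₂[u i, v i] ∈ twelve a b := by
      intro i; fin_cases i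
      · exact hx
      · exact m1
      · exact m2
      · exact m3
      · exact m4
    have := affine_transfer univ (![1, -(1 + x₁) / 2, -(1 - x₁) / 2, -x₂ / 2, x₂ / 2] : Fin 5 → ℝ)
      (by simp [Fin.sum_univ_succ]; ring) (fun i => (!₂[u i, v i] : E 2)) (fun i => Y (u i) (v i))
      (fun i j => hY _ _ _ _ (hm i) (hm j)) (by
        ext k
        fin_cases k
        · simp [Fin.sum_univ_succ, u, v]; ring
        · simp [Fin.sum_univ_succ, u, v]; ring)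
    have h2 := congrArg (fun w : E d => w k) this
    simp [Fin.sum_univ_succ, u, v] at h2
    linarith
  have mab : ∀ x₁ x₂ : ℝ, (!₂[x₁, x₂] : E 2) ∈ ({!₂[a, b], !₂[a, -b], !₂[-a, b], !₂[-a, -b],
      !₂[b, a], !₂[b, -a], !₂[-b, a], !₂[-b, -a]} : Finset (E 2)) →
      (!₂[x₁, x₂] : E 2) ∈ twelve a b := by
    intro x₁ x₂ hx
    unfold twelve
    iterate 4 apply mem_insert_of_mem
    exact hx
  -- the coordinates of centre and frame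
  let w : Fin d → ℝ := fun k => (Y 1 0 k + Y (-1) 0 k) / 2
  let e : Fin d → ℝ := fun k => (Y 1 0 k - Y (-1) 0 k) / 2
  let e' : Fin d → ℝ := fun k => (Y 0 1 k - Y 0 (-1) k) / 2
  have hYk : ∀ x₁ x₂ : ℝ, !₂[x₁, x₂] ∈ twelve a b → ∀ k,
      Y x₁ x₂ k = w k + x₁ * e k + x₂ * e' k := by
    intro x₁ x₂ hx k
    rw [aff x₁ x₂ hx k]
    simp only [w, e, e']; ring
  have hDY : ∀ x₁ x₂ : ℝ, !₂[x₁, x₂] ∈ twelve a b → ∀ k,
      D (Y x₁ x₂ k) = D (w k) + (x₁ * D (e k) + e k * D x₁) + (x₂ * D (e' k) + e' k * D x₂) := by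
    intro x₁ x₂ hx k
    rw [hYk x₁ x₂ hx k, map_add, map_add, D.leibniz, D.leibniz]
    simp only [smul_eq_mul]
  have d1 : D 1 = 0 := D.map_one_eq_zero
  have d0 : D 0 = 0 := map_zero D
  have dn : ∀ x, D (-x) = - D x := fun x => map_neg D x
  have horth : a * D a + b * D b = 0 := by
    have h1 : D (a ^ 2 + b ^ 2) = 0 := by rw [hab, d1]
    rw [map_add, pow_two, pow_two, D.leibniz, D.leibniz] at h1
    simp only [smul_eq_mul] at h1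
    linarith
  have hcoord : ∀ k, (D (Y a b k)) ^ 2 + (D (Y a (-b) k)) ^ 2 + (D (Y (-a) b k)) ^ 2
      + (D (Y (-a) (-b) k)) ^ 2 + (D (Y b a k)) ^ 2 + (D (Y b (-a) k)) ^ 2
      + (D (Y (-b) a k)) ^ 2 + (D (Y (-b) (-a) k)) ^ 2
      - 2 * ((D (Y 1 0 k)) ^ 2 + (D (Y (-1) 0 k)) ^ 2 + (D (Y 0 1 k)) ^ 2
        + (D (Y 0 (-1) k)) ^ 2)
      = 4 * (D a ^ 2 + D b ^ 2) * (e k ^ 2 + e' k ^ 2) := by
    intro k
    rw [hDY a b (mab _ _ (by simp)), hDY a (-b) (mab _ _ (by simp)),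
      hDY (-a) b (mab _ _ (by simp)), hDY (-a) (-b) (mab _ _ (by simp)),
      hDY b a (mab _ _ (by simp)), hDY b (-a) (mab _ _ (by simp)),
      hDY (-b) a (mab _ _ (by simp)), hDY (-b) (-a) (mab _ _ (by simp)),
      hDY 1 0 m1, hDY (-1) 0 m2, hDY 0 1 m3, hDY 0 (-1) m4]
    simp only [dn, d1, d0]
    linear_combination (4 * (D (e k)) ^ 2 + 4 * (D (e' k)) ^ 2) * hab
      + (8 * (D (e k)) * e k + 8 * (D (e' k)) * e' k) * horth
  have he : ∑ k, e k ^ 2 = 1 := by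
    have h1 := hY 1 0 (-1) 0 m1 m2
    rw [EuclideanSpace.dist_eq, dist_two] at h1
    have h2 := congrArg (fun x => x ^ 2) h1
    simp only at h2
    rw [Real.sq_sqrt (by positivity), Real.sq_sqrt (by positivity)] at h2
    simp only [Real.dist_eq, sq_abs] at h2
    have h3 : ∑ k, e k ^ 2 = (∑ k, (Y 1 0 k - Y (-1) 0 k) ^ 2) / 4 := by
      rw [sum_div]
      exact sum_congr rfl fun k _ => by simp only [e]; ring
    rw [h3, h2]; norm_num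
  have he' : ∑ k, e' k ^ 2 = 1 := by
    have h1 := hY 0 1 0 (-1) m3 m4
    rw [EuclideanSpace.dist_eq, dist_two] at h1
    have h2 := congrArg (fun x => x ^ 2) h1
    simp only at h2
    rw [Real.sq_sqrt (by positivity), Real.sq_sqrt (by positivity)] at h2
    simp only [Real.dist_eq, sq_abs] at h2
    have h3 : ∑ k, e' k ^ 2 = (∑ k, (Y 0 1 k - Y 0 (-1) k) ^ 2) / 4 := by
      rw [sum_div]
      exact sum_congr rfl fun k _ => by simp only [e']; ring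
    rw [h3, h2]; norm_num
  simp only [hG]
  have := sum_congr (rfl : (univ : Finset (Fin d)) = univ) (fun k _ => hcoord k)
  simp only [sum_add_distrib, sum_sub_distrib, ← mul_sum] at this
  rw [this, he, he']
  ring

theorem not_isRamsey_twelve {a b : ℝ} (hab : a ^ 2 + b ^ 2 = 1) (ha : Transcendental ℚ a) :
    ¬ IsRamsey (twelve a b) := by
  obtain ⟨D, hD⟩ := exists_derivation a ha
  rintro ⟨_, h⟩
  obtain ⟨d, _, h⟩ := h 16 (by norm_num)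
  set ω : ℝ := D a ^ 2 + D b ^ 2 with hω
  have hω0 : 0 < ω := by rw [hω, hD]; positivity
  let G : E d → ℝ := fun y => ∑ k, (D (y k)) ^ 2
  have hG0 : ∀ y, 0 ≤ G y / ω := fun y => div_nonneg (sum_nonneg fun k _ => sq_nonneg _) hω0.le
  obtain ⟨f, hf, c, hc⟩ := h (fun y => ⟨⌊G y / ω⌋₊ % 16, Nat.mod_lt _ (by norm_num)⟩)
  let Y : ℝ → ℝ → E d := fun x₁ x₂ =>
    if h : (!₂[x₁, x₂] : E 2) ∈ twelve a b then f ⟨_, h⟩ else 0
  have hYf : ∀ x₁ x₂ : ℝ, ∀ h : (!₂[x₁, x₂] : E 2) ∈ twelve a b, Y x₁ x₂ = f ⟨_, h⟩ := by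
    intro x₁ x₂ h
    simp only [Y]
    rw [dif_pos h]
  have key := twelve_identity hab D Y (by
    intro x₁ x₂ x₃ x₄ h1 h2
    rw [hYf _ _ h1, hYf _ _ h2, hf]) G (fun y => rfl)
  have hfl : ∀ x₁ x₂ : ℝ, (!₂[x₁, x₂] : E 2) ∈ twelve a b →
      (⌊G (Y x₁ x₂) / ω⌋₊ % 16 = c.val) ∧ ((⌊G (Y x₁ x₂) / ω⌋₊ : ℝ) ≤ G (Y x₁ x₂) / ω) ∧
      (G (Y x₁ x₂) / ω < ⌊G (Y x₁ x₂) / ω⌋₊ + 1) := by
    intro x₁ x₂ h
    refine ⟨?_, Nat.floor_le (hG0 _), Nat.lt_floor_add_one _⟩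
    rw [hYf _ _ h, ← hc ⟨_, h⟩]
  have key2 : G (Y a b) / ω + G (Y a (-b)) / ω + G (Y (-a) b) / ω + G (Y (-a) (-b)) / ω
      + G (Y b a) / ω + G (Y b (-a)) / ω + G (Y (-b) a) / ω + G (Y (-b) (-a)) / ω
      - 2 * (G (Y 1 0) / ω + G (Y (-1) 0) / ω + G (Y 0 1) / ω + G (Y 0 (-1)) / ω) = 8 := by
    have : 8 = (8 * ω) / ω := by field_simp
    rw [this, ← key]; ring
  obtain ⟨a1, b1, c1⟩ := hfl a b (by simp [twelve])
  obtain ⟨a2, b2, c2⟩ := hfl a (-b) (by simp [twelve])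
  obtain ⟨a3, b3, c3⟩ := hfl (-a) b (by simp [twelve])
  obtain ⟨a4, b4, c4⟩ := hfl (-a) (-b) (by simp [twelve])
  obtain ⟨a5, b5, c5⟩ := hfl b a (by simp [twelve])
  obtain ⟨a6, b6, c6⟩ := hfl b (-a) (by simp [twelve])
  obtain ⟨a7, b7, c7⟩ := hfl (-b) a (by simp [twelve])
  obtain ⟨a8, b8, c8⟩ := hfl (-b) (-a) (by simp [twelve])
  obtain ⟨a9, b9, c9⟩ := hfl 1 0 (by simp [twelve])
  obtain ⟨a10, b10, c10⟩ := hfl (-1) 0 (by simp [twelve])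
  obtain ⟨a11, b11, c11⟩ := hfl 0 1 (by simp [twelve])
  obtain ⟨a12, b12, c12⟩ := hfl 0 (-1) (by simp [twelve])
  generalize ⌊G (Y a b) / ω⌋₊ = n1 at *
  generalize ⌊G (Y a (-b)) / ω⌋₊ = n2 at *
  generalize ⌊G (Y (-a) b) / ω⌋₊ = n3 at *
  generalize ⌊G (Y (-a) (-b)) / ω⌋₊ = n4 at *
  generalize ⌊G (Y b a) / ω⌋₊ = n5 at *
  generalize ⌊G (Y b (-a)) / ω⌋₊ = n6 at *
  generalize ⌊G (Y (-b) a) / ω⌋₊ = n7 at *
  generalize ⌊G (Y (-b) (-a)) / ω⌋₊ = n8 at *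
  generalize ⌊G (Y 1 0) / ω⌋₊ = n9 at *
  generalize ⌊G (Y (-1) 0) / ω⌋₊ = n10 at *
  generalize ⌊G (Y 0 1) / ω⌋₊ = n11 at *
  generalize ⌊G (Y 0 (-1)) / ω⌋₊ = n12 at *
  have u1 : (2 * (n9 + n10 + n11 + n12) : ℝ) < n1 + n2 + n3 + n4 + n5 + n6 + n7 + n8 := by
    linarith
  have u2 : (n1 + n2 + n3 + n4 + n5 + n6 + n7 + n8 : ℝ) < 2 * (n9 + n10 + n11 + n12) + 16 := by
    linarith
  have u1' : 2 * (n9 + n10 + n11 + n12) < n1 + n2 + n3 + n4 + n5 + n6 + n7 + n8 := by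
    exact_mod_cast u1
  have u2' : n1 + n2 + n3 + n4 + n5 + n6 + n7 + n8 < 2 * (n9 + n10 + n11 + n12) + 16 := by
    exact_mod_cast u2
  omega

theorem isSpherical_twelve {a b : ℝ} (hab : a ^ 2 + b ^ 2 = 1) : IsSpherical (twelve a b) := by
  refine ⟨!₂[0, 0], 1, ?_⟩
  intro x hx
  simp only [twelve, mem_insert, mem_singleton] at hx
  rw [← Real.sqrt_one]
  rcases hx with rfl | rfl | rfl | rfl | rfl | rfl | rfl | rfl | rfl | rfl | rfl | rfl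
  all_goals rw [dist_two]; congr 1; nlinarith

theorem card_le_twelve_aux (x1 x2 x3 x4 x5 x6 x7 x8 x9 x10 x11 x12 : E 2) :
    ({x1, x2, x3, x4, x5, x6, x7, x8, x9, x10, x11, x12} : Finset (E 2)).card ≤ 12 := by
  have h : ∀ (x : E 2) (s : Finset (E 2)) (n : ℕ), s.card ≤ n → (insert x s).card ≤ n + 1 :=
    fun x s n hs => (card_insert_le x s).trans (Nat.succ_le_succ hs)
  iterate 11 apply h
  simp

theorem card_twelve (a b : ℝ) : (twelve a b).card ≤ 12 := by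
  unfold twelve
  exact card_le_twelve_aux _ _ _ _ _ _ _ _ _ _ _ _

theorem spherical_not_ramsey :
    (∀ a b : ℝ, a ^ 2 + b ^ 2 = 1 → Transcendental ℚ a →
      IsSpherical (twelve a b) ∧ ¬ IsRamsey (twelve a b)) ∧
    (∃ A : Finset (E 2), A.Nonempty ∧ A.card ≤ 12 ∧ IsSpherical A ∧ ¬ IsRamsey A) := by
  refine ⟨fun a b hab ha => ⟨isSpherical_twelve hab, not_isRamsey_twelve hab ha⟩, ?_⟩
  obtain ⟨t, h0, h1, ht⟩ := exists_transcendental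
  have hab : t ^ 2 + √(1 - t ^ 2) ^ 2 = 1 := by
    rw [Real.sq_sqrt (by nlinarith)]; ring
  exact ⟨twelve t √(1 - t ^ 2), ⟨!₂[1, 0], by simp [twelve]⟩, card_twelve _ _,
    isSpherical_twelve hab, not_isRamsey_twelve hab ht⟩

end Vale.Agent.H8.P058
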